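import Vale.Agent.P011.H308.U.M8fU

/-!
# The explicit zero of the parameter quadric near the limit point, odd characteristic
-/

set_option linter.unusedSectionVars false

open Module Matrix Filter Topology
open scoped TensorProduct

namespace Vale.Agent.P011.H308.U

open Vale.Agent.P011.H775 Vale.Agent.P011.H948
open Vale.Agent.P011.H182 (na)

section one

variable {k K D : Type} [Field k] [Field K] [StarRing K] [DivisionRing D] [StarRing D]
  [Algebra k K] [Algebra k D] [Algebra K D] [IsScalarTower k K D] (H : BsU k K) {C : Cub K D}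
  (hC : SCub C) {gs ys rs : D} (hL : LimU C gs ys rs)

include H hC hL

/-- One place. -/
theorem one_place [Module.Finite k D] {N : ℕ} (B : Basis (Fin N) k D) (s : K) {d : k}
    (hd : d ≠ 0) (a : AbsoluteValue k ℝ) :
    ∃ δ : ℝ, 0 < δ ∧ ∀ κ : k, a κ < δ → κ ≠ 0 → ∃ η : ℝ, 0 < η ∧ ∀ (ε : k) (g y r : D),
      a ε < η → na B a (g - gs) < η → na B a (y - ys) < η → na B a (r - rs) < η →
        GX C s d a κ ε g y r := by
  have hfK : Module.Finite k K := Module.finite_of_finrank_pos (by rw [H.hK]; norm_num)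
  obtain ⟨τ, h1, h2, h3, h4⟩ := exists_top a
  let _ := τ
  let _ : TopologicalSpace K := moduleTopology k K
  let _ : TopologicalSpace D := moduleTopology k D
  have iK : IsModuleTopology k K := ⟨rfl⟩
  have iD : IsModuleTopology k D := ⟨rfl⟩
  have hev := eventually_GX (C := C) (s := s) (d := d) (a := a) h3 H.two
    hL.Tgg (L1_ne H hC hL) (L2_ne H hC hL) (ee_ne H hC hL hd) (K3_ne H hC hL)
    (K2_ne H hC hL hd) (e0_ne H hC hL hd)
  obtain ⟨δ, hδ, h5⟩ := exists_delta (a := a) h4 hev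
  refine ⟨δ, hδ, fun κ hκ hκ0 => ?_⟩
  exact exists_eta (a := a) B h4 (h5 κ hκ hκ0)

end one

variable {k K F D : Type} [Field k] [Field K] [Algebra k K]

variable [StarRing K] [DivisionRing D] [StarRing D] [Algebra k D] [Algebra K D]
  [IsScalarTower k K D]

/-- **The rho-part of the statement at the ramified places.** -/
theorem rho_endU [Infinite k] (H : BsU k K) {C : Cub K D} (hC : SCub C) [Module.Finite k D]
    {N : ℕ} (B : Basis (Fin N) k D) (s : K) {d : k} (hd : d ≠ 0) {gs ys rs : D}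
    (hL : LimU C gs ys rs) {ι : Type} [Finite ι] [Nonempty ι] (A : ι → AbsoluteValue k ℝ)
    (hκ : ∀ δ : ℝ, 0 < δ → ∃ κ : k, κ ≠ 0 ∧ ∀ i, A i κ < δ) :
    ∃ η : ℝ, 0 < η ∧ ∀ (l : k) (g y r : D), l ≠ 0 →
      (∀ i, A i l < η ∧ na B (A i) (l • g - gs) < η ∧ na B (A i) (l • y - ys) < η ∧
        na B (A i) (r - rs) < η) →
      ∀ (F : Type) [Field F] [Algebra k F] [FiniteDimensional k F] [Algebra.IsSeparable k F]
        (φ : F →ₐ[k] D) (σ : F) [FiniteDimensional K D] [Algebra.IsCentral K D] (M : DatU C φ),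
        AdXU d s g y r σ M → ∃ z : F × k, M.Q z = 0 ∧
          QuadraticMap.polar M.Q z (sh k M.a, 0) ≠ 0 ∧ M.A z ≠ 0 ∧
          ∀ i, ∃ c3 c2 c1 c0 : k, c3 ≠ 0 ∧ A i (c1 * c3) < A i c2 ^ 2 ∧
            A i (c0 * c3 ^ 2) < A i c2 ^ 3 ∧
            ∀ (L : Type) [Field L] [Algebra k L] (μ : L),
              algebraMap k L c3 * μ ^ 3 + algebraMap k L c2 * μ ^ 2 + algebraMap k L c1 * μ +
                algebraMap k L c0 = 0 →
              ∃ f : L ⊗[k] F, Algebra.norm L f +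
                Algebra.trace L (L ⊗[k] F) ((1 ⊗ₜ[k] M.A z) * f) +
                algebraMap k L (M.G z) = 0 := by
  choose δ hδ h1 using fun i => one_place H hC hL B s hd (A i)
  obtain ⟨δ0, hδ0, hle⟩ := exists_lb δ hδ
  obtain ⟨κ, hκ0, hκA⟩ := hκ δ0 hδ0
  choose η hη h2 using fun i => h1 i κ ((hκA i).trans_le (hle i)) hκ0
  obtain ⟨η0, hη0, hηle⟩ := exists_lb η hη
  refine ⟨η0, hη0, ?_⟩
  intro l g y r hl hnear F _ _ _ _ φ σ _ _ M hM
  obtain ⟨z, hz⟩ := alg_end (M := M) hM hl hκ0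
  have h3 : ∀ i, GX C s d (A i) κ l (l • g) (l • y) r := fun i => by
    obtain ⟨n1, n2, n3, n4⟩ := hnear i
    have h := hηle i
    exact h2 i l _ _ r (n1.trans_le h) (n2.trans_le h) (n3.trans_le h) (n4.trans_le h)
  obtain ⟨i0⟩ := (inferInstance : Nonempty ι)
  obtain ⟨q1, q2, q3, -⟩ := hz (A i0) (h3 i0)
  exact ⟨z, q1, q2, q3, fun i => (hz (A i) (h3 i)).2.2.2⟩

end Vale.Agent.P011.H308.U

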