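import Vale.Agent.P011.H871.U.M3cU
import Vale.Agent.P011.H308.M8g

/-!
# The chart in the original coordinates, in every odd characteristic

(The version of `H308/M8a.lean` for the charts `DatU`.)
-/

set_option linter.unusedSectionVars false

open Module Polynomial Matrix

namespace Vale.Agent.P011.H308.U

open Vale.Agent.P011.H775

variable {k K F D : Type} [Field k] [Field K] [Field F] [Algebra k K] [Algebra k F]

variable [StarRing K] [DivisionRing D] [StarRing D] [Algebra k D] [Algebra K D]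
  [FiniteDimensional K D] [Algebra.IsCentral K D] [IsScalarTower k K D]
  [FiniteDimensional k F] [Algebra.IsSeparable k F]

section cfd

variable {C : Cub K D} {φ : F →ₐ[k] D} {p : D} (H : Cfd C φ p)

include H

/-- The kernel of the linear condition. -/
theorem exists_actU {δ : K} (hδ : star δ = -δ) {d : k} (hd : δ ^ 2 = algebraMap k K d)
    (hd0 : d ≠ 0) {a b : F} (ha : Algebra.trace k F a = 0) (hb : Algebra.trace k F b = 0)
    {c : k} (hc : algebraMap k F c = MM k a b) (hc0 : c ≠ 0) {h : D} (hh : InV C φ p h)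
    (hpr : pr C φ (C.adj h) ≠ 0) {u : D} (hu : InV C φ p u) (h0 : pr C φ (C.cr h u) = 0) :
    ∃ t : F, u = act C φ t (tw φ δ a b h) := by
  obtain ⟨Ω, _, _, ⟨S⟩⟩ := H.exists_dspl
  have hh' := H.tw_inV hδ a b hh
  have hU := H.off S hu
  have hO := H.off S hh
  have hO' := H.off S hh'
  have hc := S.tc_sqU H.h2 hc
  have hd' := congrArg (algebraMap K Ω) hd
  rw [map_pow] at hd'
  have h2 := S.two_ne H.h2
  have hcne : algebraMap K Ω δ * S.tc a b ≠ 0 := by
    intro h00
    have h1 : (algebraMap K Ω δ * S.tc a b) ^ 2 = 0 := by rw [h00]; ring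
    rw [mul_pow, hc, hd', ← map_mul, ← map_mul] at h1
    have h4 := (_root_.map_eq_zero _).1 h1
    have h5 := (_root_.map_eq_zero _).1 h4
    exact mul_ne_zero hd0 hc0 h5
  have hpm : ∀ i, S.xp h i * S.xm h i ≠ 0 := by
    intro i h00
    apply hpr
    apply (S.σ i).injective
    rw [S.pr_eq H (H.adj_sy' hh), hO.adj_diag, h00, neg_zero, map_zero]
  have hlin : ∀ i, S.xp h i * S.xm u i + S.xm h i * S.xp u i = 0 := by
    intro i
    have e := hO.cr_diag hU i
    rw [← S.pr_eq H (H.cr_sy hh.sy hu.sy), h0, map_zero] at e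
    exact neg_eq_zero.1 e.symm
  set t : F := pr C φ (C.cr (tw φ δ a b h) u) / (2 * pr C φ (C.adj (tw φ δ a b h))) with ht
  have hσ : ∀ i, S.σ i t * (2 * (algebraMap K Ω δ * S.tc a b) * S.xp h i) = 2 * S.xp u i := by
    intro i
    have hp1 := left_ne_zero_of_mul (hpm i)
    have hm1 := right_ne_zero_of_mul (hpm i)
    rw [ht, map_div₀, map_mul, map_ofNat, S.pr_eq H (H.cr_sy hh'.sy hu.sy),
      S.pr_eq H (H.adj_sy' hh'), hO'.cr_diag hU, hO'.adj_diag, S.xp_tw δ ha hb,
      S.xm_tw δ ha hb]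
    have hl := hlin i
    have hδ0 := left_ne_zero_of_mul hcne
    have hc0' := right_ne_zero_of_mul hcne
    field_simp
    linear_combination (-1 : Ω) * hl
  refine ⟨t, hU.ext (hO'.act t) (fun i => ?_) fun i => ?_⟩
  · rw [S.xp_act, S.xp_tw δ ha hb]
    apply mul_left_cancel₀ h2
    rw [← hσ i]
    ring
  · rw [S.xm_act, S.xm_tw δ ha hb]
    have hp1 := left_ne_zero_of_mul (hpm i)
    apply mul_left_cancel₀ h2
    apply mul_left_cancel₀ hp1
    linear_combination 2 * hlin i + S.xm h i * hσ i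

end cfd

section dat

variable {C : Cub K D} {φ : F →ₐ[k] D} (M : DatU C φ)

theorem p_ne : M.p ≠ 0 := M.H.hp0

/-- The part of `p y` in `V`. -/
noncomputable def yV : D := M.p * M.y - φ (pr C φ (M.p * M.y))

/-- The part of `p y` in `F`. -/
noncomputable def yF : F := pr C φ (M.p * M.y)

theorem py_sy : Sy M.p (M.p * M.y) := by
  change M.p * star (M.p * M.y) = M.p * M.y * M.p
  rw [star_mul, M.hy, M.H.hp, mul_assoc]

theorem yV_inV : InV C φ M.p (yV M) := by
  refine ⟨(py_sy M).sub (M.H.hφ _), ?_⟩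
  rw [yV, map_sub, M.H.pr_φ, sub_self]

/-- The second coordinate of the original chart. -/
noncomputable def v0 (z : F × k) : D := M.L z - (M.d * z.2) • yV M

theorem v0_inV (z : F × k) : InV C φ M.p (v0 M z) := by
  rw [v0, sub_eq_add_neg, ← neg_smul]
  exact M.H.inV_add (M.L_inV z) (M.H.inV_smul _ (yV_inV M))

/-- The linear condition. -/
theorem pr_lin (z : F × k) : pr C φ (C.cr M.h (M.L z)) +
    algebraMap k F (M.n * M.d * z.2) * pr C φ M.jp = 0 := by
  have h1 := M.H.pr_cr_par M.hδ (f := M.a) (g := M.b) M.ha M.hb M.h_inV (z.2 • M.w₀) z.1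
  rw [← M.L_apply] at h1
  rw [h1, Algebra.smul_def, DatU.w₀]
  have h2 := M.H.h2
  have h2' : (2 : F) ≠ 0 := by
    have h := (_root_.map_ne_zero (algebraMap k F)).2 h2
    rwa [map_ofNat] at h
  have h4 : pr C φ (C.adj M.h) ≠ 0 := M.prh0
  simp only [map_mul, map_div₀, map_ofNat]
  field_simp
  ring

theorem cr_mul_left (x y : D) : C.cr (M.p * x) (M.p * y) = (algebraMap k K M.n) • (C.cr x y * M.p⁻¹) := by
  have h1 : C.cr (M.p * x) (M.p * y) = C.adj (M.p * (x + y)) - C.adj (M.p * x) -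
      C.adj (M.p * y) := by
    rw [mul_add, C.adj_add]
    abel
  have h2 : C.cr x y = C.adj (x + y) - C.adj x - C.adj y := by
    rw [C.adj_add]
    abel
  rw [h1, h2, C.adj_mul_distrib, C.adj_mul_distrib, C.adj_mul_distrib, C.adj_eq_inv M.H.hp0, M.hn,
    ← sub_mul, ← sub_mul, mul_smul_comm]

/-- The point of the chart in the original coordinates. -/
theorem xi_eq (z : F × k) (e : F) :
    M.xi z (e + algebraMap k F (M.d * z.2) * yF M) = M.p⁻¹ * (φ e + v0 M z) := by
  have hp := M.H.hp0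
  have e1 : φ (e + algebraMap k F (M.d * z.2) * yF M) =
      φ e + (M.d * z.2) • φ (pr C φ (M.p * M.y)) := by
    rw [map_add, map_mul, AlgHom.commutes, ← Algebra.smul_def, yF]
  have e2 : algebraMap k K (M.d * z.2) • M.y = (M.d * z.2) • M.y := algebraMap_smul _ _ _
  rw [DatU.xi, e1, e2, v0, yV]
  apply mul_left_cancel₀ hp
  rw [mul_sub, ← mul_assoc, ← mul_assoc, mul_inv_cancel₀ hp, one_mul, one_mul, mul_smul_comm,
    smul_sub]
  abel

/-- The cubic form in the original coordinates. -/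
noncomputable def cub (x₀ : k) (m : D) : K :=
  C.N m + algebraMap k K (M.d * x₀) * C.T (M.p * M.y * C.adj m) +
    algebraMap k K (M.n * M.d * x₀ ^ 2) * C.T (M.g * M.p⁻¹ * m)

/-- The quadratic form in the original coordinates. -/
noncomputable def qua (x₀ : k) (m : D) : K :=
  C.T (M.h * C.adj m) + algebraMap k K (M.n * M.d * x₀) * C.T (M.y * M.p⁻¹ * m) +
    algebraMap k K (M.n * M.d * x₀ ^ 2)

theorem n_Cf (x₀ : k) (m : D) : algebraMap k K M.n *
    C.Cf (algebraMap k K M.d) M.g M.y (algebraMap k K x₀) (M.p⁻¹ * m) = cub M x₀ m := by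
  have hp := M.H.hp0
  have h1 : C.N M.p * C.N (M.p⁻¹ * m) = C.N m := by
    rw [← C.N_mul, ← mul_assoc, mul_inv_cancel₀ hp, one_mul]
  have h2 := H948.T_mul_adj_inv_mul C M.y hp m
  rw [Cub.Cf, cub, ← h1, ← h2, M.hn]
  simp only [map_mul, map_pow, mul_assoc]
  ring

theorem n_Qf (x₀ : k) (m : D) : algebraMap k K M.n *
    C.Qf (algebraMap k K M.d) M.g M.y (algebraMap k K x₀) (M.p⁻¹ * m) = qua M x₀ m := by
  have hp := M.H.hp0
  have h2 := H948.T_mul_adj_inv_mul C M.g hp m
  rw [Cub.Qf, qua, DatU.h, ← h2, M.hn]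
  simp only [map_mul, map_pow, mul_assoc]
  ring

/-- The Skolem equation is the cubic form. -/
theorem skolem_eq (z : F × k) (e : F) : algebraMap k K
    (Algebra.norm k e + Algebra.trace k F (e * M.A z) + M.G z) =
      algebraMap k K M.n *
        C.Cf (algebraMap k K M.d) M.g M.y (algebraMap k K z.2) (M.xi z e) := by
  have hp := M.H.hp0
  have hv := M.L_inV z
  have hx : M.xi z e = M.p⁻¹ * (φ e + M.L z) - (algebraMap k K M.d * algebraMap k K z.2) • M.y := by
    rw [DatU.xi, map_mul]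
  have h1 : C.N M.p * C.N (M.p⁻¹ * (φ e + M.L z)) = C.N (φ e + M.L z) := by
    rw [← C.N_mul, ← mul_assoc, mul_inv_cancel₀ hp, one_mul]
  rw [M.hn] at h1
  have h2 : C.T (C.adj (φ e) * M.L z) = 0 := by
    rw [M.H.adj_φ, T_mul_inV M.H hv]
  have h3 : ∀ m : D, C.T ((M.g - algebraMap k K M.d • C.adj M.y) * (M.p⁻¹ * m)) =
      C.T (M.Gp * m) := fun m => by
    rw [← mul_assoc]
    rfl
  rw [hx, C.Cf_mu, mul_add, mul_add, h1, C.N_add, h2, M.H.N_φ, h3, mul_add (M.Gp), map_add C.T,
    C.T_comm M.Gp (φ e), M.H.T_mul_pr (M.H.adj_sy hv.sy), M.H.T_mul_pr M.Gp_sy]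
  simp only [map_add]
  have hG := M.G_eq z
  rw [DatU.κ₀] at hG
  have hA : Algebra.trace k F (e * M.A z) = Algebra.trace k F (e * pr C φ (C.adj (M.L z))) +
      (M.n * M.d * z.2 ^ 2) * Algebra.trace k F (e * pr C φ M.Gp) := by
    rw [M.A_eq, mul_add, map_add, mul_left_comm, ← Algebra.smul_def, map_smul, smul_eq_mul]
  rw [hG, hA]
  simp only [map_add, map_mul, map_pow]
  ring

/-- The Skolem equation in the original coordinates. -/
theorem skolem_eq' (z : F × k) (e : F) : algebraMap k K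
    (Algebra.norm k (e + algebraMap k F (M.d * z.2) * yF M) +
      Algebra.trace k F ((e + algebraMap k F (M.d * z.2) * yF M) * M.A z) + M.G z) =
      cub M z.2 (φ e + v0 M z) := by
  rw [skolem_eq, xi_eq, n_Cf]

/-- The parameter quadric is the quadratic form. -/
theorem Q_eq_Qf (z : F × k) (e : F) : algebraMap k K (M.Q z) = algebraMap k K M.n *
        C.Qf (algebraMap k K M.d) M.g M.y (algebraMap k K z.2) (M.xi z e) := by
  have hp := M.H.hp0
  have hv := M.L_inV z
  have hx : M.xi z e = M.p⁻¹ * (φ e + M.L z) - (algebraMap k K M.d * algebraMap k K z.2) • M.y := by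
    rw [DatU.xi, map_mul]
  have h2 := H948.T_mul_adj_inv_mul C M.g hp (φ e + M.L z)
  rw [M.hn] at h2
  have h3 : ∀ m : D, C.T ((M.y - C.cr M.g M.y) * (M.p⁻¹ * m)) =
      C.T (M.jp * m) := fun m => by
    rw [← mul_assoc]
    rfl
  have h4 : C.T (M.p * M.g * C.adj (φ e + M.L z)) = C.T (M.h * C.adj (M.L z)) +
      C.T (φ e * C.cr M.h (M.L z)) := by
    have e1 : C.T (M.h * C.adj (φ e)) = 0 := by
      rw [M.H.adj_φ, C.T_comm, T_mul_inV M.H M.h_inV]
    have e2 : C.T (M.h * C.cr (φ e) (M.L z)) = C.T (φ e * C.cr M.h (M.L z)) := C.T_mul_cr _ _ _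
    change C.T (M.h * C.adj (φ e + M.L z)) = _
    rw [C.adj_add, mul_add, mul_add, map_add, map_add, e1, e2]
    ring
  have h5 : C.T (φ e * C.cr M.h (M.L z)) + algebraMap k K (M.n * M.d * z.2) *
      C.T (φ e * M.jp) = 0 := by
    rw [M.H.T_mul_pr (M.H.cr_sy M.h_inV.sy hv.sy), M.H.T_mul_pr M.jp_sy, ← map_mul, ← map_add]
    have h6 := congrArg (fun t => Algebra.trace k F (e * t)) (pr_lin M z)
    simp only [mul_add, map_add, mul_zero, map_zero] at h6
    rw [mul_left_comm, ← Algebra.smul_def, map_smul, smul_eq_mul] at h6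
    rw [h6, map_zero]
  rw [hx, C.Qf_mu, mul_add, mul_add, h2, h4, h3, mul_add M.jp, map_add C.T, C.T_comm M.jp (φ e),
    M.Q_eq, DatU.q₀]
  simp only [map_mul, map_pow] at h5 ⊢
  linear_combination (-1 : K) * h5

/-- The parameter quadric in the original coordinates. -/
theorem Q_eq' (z : F × k) : algebraMap k K (M.Q z) = qua M z.2 (v0 M z) := by
  have h := Q_eq_Qf M z (0 + algebraMap k F (M.d * z.2) * yF M)
  rw [xi_eq, map_zero, zero_add, n_Qf] at h
  exact h

/-- The linear condition in the original coordinates. -/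
theorem pr_lin' (z : F × k) : pr C φ (C.cr M.h (v0 M z)) +
    algebraMap k F (M.n * M.d * z.2) * pr C φ (M.y * M.p⁻¹) = 0 := by
  have h1 := pr_lin M z
  have h2 : pr C φ (C.cr M.h (yV M)) = algebraMap k F M.n * pr C φ (C.cr M.g M.y * M.p⁻¹) := by
    rw [yV, H948.cr_sub_right, map_sub, pr_cr_φ M.H M.h_inV, sub_zero]
    change pr C φ (C.cr (M.p * M.g) (M.p * M.y)) = _
    rw [cr_mul_left, algebraMap_smul, map_smul, Algebra.smul_def]
  have h3 : pr C φ M.jp = pr C φ (M.y * M.p⁻¹) - pr C φ (C.cr M.g M.y * M.p⁻¹) := by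
    rw [DatU.jp, sub_mul, map_sub]
  have h4 : C.cr M.h (v0 M z) = C.cr M.h (M.L z) - (M.d * z.2) • C.cr M.h (yV M) := by
    rw [v0, H948.cr_sub_right, ← algebraMap_smul K, C.cr_smul_right, algebraMap_smul]
  rw [h4, map_sub, map_smul, h2, Algebra.smul_def]
  rw [h3] at h1
  simp only [map_mul] at h1 ⊢
  linear_combination h1

/-- Every solution of the linear condition occurs. -/
theorem exists_v0 (x₀ : k) {v : D} (hv : InV C φ M.p v)
    (h0 : pr C φ (C.cr M.h v) + algebraMap k F (M.n * M.d * x₀) * pr C φ (M.y * M.p⁻¹) = 0) :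
    ∃ t : F, v0 M (t, x₀) = v := by
  have h1 := pr_lin' M (0, x₀)
  set u := v - v0 M (0, x₀) with hu
  have huV : InV C φ M.p u := by
    rw [hu, sub_eq_add_neg, ← neg_one_smul k]
    exact M.H.inV_add hv (M.H.inV_smul _ (v0_inV M _))
  have hu0 : pr C φ (C.cr M.h u) = 0 := by
    rw [hu, H948.cr_sub_right, map_sub]
    linear_combination h0 - h1
  obtain ⟨t, ht⟩ := exists_actU M.H M.hδ M.hd M.d0 M.ha M.hb M.hc M.c0 M.h_inV M.prh0 huV hu0
  refine ⟨t, ?_⟩
  have e1 : v0 M (t, x₀) = v0 M (0, x₀) + act C φ t M.h' := by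
    have e2 : ((t, x₀) : F × k) = (t, 0) + (0, x₀) := by simp
    rw [v0, v0, e2, map_add, M.L_inf]
    simp only [Prod.snd_add, zero_add]
    abel
  rw [e1]
  change v0 M (0, x₀) + act C φ t (tw φ M.δ M.a M.b M.h) = v
  rw [← ht, hu]
  abel

end dat

end Vale.Agent.P011.H308.U
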