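import Vale.Agent.P011.H308.U.M8aU

/-!
# The zeros of the parameter quadric at infinity, in every odd characteristic
-/

set_option linter.unusedSectionVars false

open Module Polynomial Matrix

namespace Vale.Agent.P011.H308.U

open Vale.Agent.P011.H775

variable {k K F D : Type} [Field k] [Field K] [Field F] [Algebra k K] [Algebra k F]

variable [StarRing K] [DivisionRing D] [StarRing D] [Algebra k D] [Algebra K D]
  [FiniteDimensional K D] [Algebra.IsCentral K D] [IsScalarTower k K D]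
  [FiniteDimensional k F] [Algebra.IsSeparable k F]

/-- The quadratic form on the kernel of the linear condition. -/
theorem T_adj_actU {C : Cub K D} {φ : F →ₐ[k] D} {p : D} (H : Cfd C φ p) {δ : K}
    (hδ : star δ = -δ) {d : k} (hd : δ ^ 2 = algebraMap k K d) (hd0 : d ≠ 0) {a b : F}
    (ha : Algebra.trace k F a = 0) (hb : Algebra.trace k F b = 0) {c : k}
    (hc : algebraMap k F c = MM k a b) (hc0 : c ≠ 0) {h : D} (hh : InV C φ p h) (t : F) :
    C.T (h * C.adj (act C φ t (tw φ δ a b h))) =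
      C.N h * algebraMap k K (d * c * e2 k t) := by
  have h1 := H.T_mul_adj_parU hδ hd ha hb hc hh 0 t
  have e2' : act C φ 0 h = 0 := by
    rw [act, map_zero, map_zero, zero_smul, zero_mul, mul_zero, sub_zero, sub_zero]
  have e3 : e2 k (0 : F) = 0 := by simp [e2]
  have e4 : e2p k (0 : F) t = 0 := by simp [e2p]
  rw [par, e2', zero_add, e3, e4, map_zero, mul_zero, add_zero, zero_add, mul_assoc] at h1
  have h5 : algebraMap k K (d * c) ≠ 0 := (_root_.map_ne_zero _).2 (mul_ne_zero hd0 hc0)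
  exact mul_left_cancel₀ h5 h1

theorem T_cr_actU {C : Cub K D} {φ : F →ₐ[k] D} {p : D} (H : Cfd C φ p) {δ : K}
    (hδ : star δ = -δ) {d : k} (hd : δ ^ 2 = algebraMap k K d) (hd0 : d ≠ 0) {a b : F}
    (ha : Algebra.trace k F a = 0) (hb : Algebra.trace k F b = 0) {c : k}
    (hc : algebraMap k F c = MM k a b) (hc0 : c ≠ 0) {h : D} (hh : InV C φ p h) (t u : F) :
    C.T (h * C.cr (act C φ t (tw φ δ a b h)) (act C φ u (tw φ δ a b h))) =
      C.N h * algebraMap k K (d * c * e2p k t u) := by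
  have h1 := T_adj_actU H hδ hd hd0 ha hb hc hc0 hh (t + u)
  have e1 : act C φ (t + u) (tw φ δ a b h) = act C φ t (tw φ δ a b h) +
      act C φ u (tw φ δ a b h) := by
    rw [← actL_apply C φ _ (t + u), map_add, actL_apply, actL_apply]
  rw [e1, C.adj_add, mul_add, mul_add, map_add, map_add,
    T_adj_actU H hδ hd hd0 ha hb hc hc0 hh, T_adj_actU H hδ hd hd0 ha hb hc hc0 hh,
    e2_add H] at h1
  simp only [map_mul, map_add] at h1 ⊢
  linear_combination h1

section dat

variable {C : Cub K D} {φ : F →ₐ[k] D} (M : DatU C φ)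

/-- The parameter of the base vector. -/
noncomputable def w₁ : F :=
  -(algebraMap k F (M.n * M.d / 2)) * pr C φ (M.y * M.p⁻¹) / pr C φ (C.adj M.h)

theorem exists_t₀ : ∃ t : F, v0 M (t, 1) = act C φ (w₁ M) M.h := by
  refine exists_v0 M 1 (M.H.act_inV _ M.h_inV) ?_
  have h1 := M.H.pr_cr_par M.hδ (f := M.a) (g := M.b) M.ha M.hb M.h_inV (w₁ M) 0
  have e1 : par C φ M.δ M.a M.b M.h (w₁ M) 0 = act C φ (w₁ M) M.h := by
    rw [par]
    have e2 : act C φ 0 (tw φ M.δ M.a M.b M.h) = 0 := by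
      rw [act, map_zero, map_zero, zero_smul, zero_mul, mul_zero, sub_zero, sub_zero]
    rw [e2, add_zero]
  rw [e1] at h1
  rw [h1, w₁]
  have h2 := M.H.h2
  have h2' : (2 : F) ≠ 0 := by
    have h := (_root_.map_ne_zero (algebraMap k F)).2 h2
    rwa [map_ofNat] at h
  have h4 : pr C φ (C.adj M.h) ≠ 0 := M.prh0
  simp only [map_mul, map_div₀, map_ofNat, mul_one]
  field_simp
  ring

theorem v0_add_fst (z : F × k) (t : F) : v0 M (z + (t, 0)) = v0 M z + act C φ t M.h' := by
  rw [v0, v0, map_add, M.L_inf, Prod.snd_add, add_zero]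
  abel

theorem v0_fst (t : F) : v0 M (t, 0) = act C φ t M.h' := by
  rw [v0, M.L_inf]
  simp

theorem exists_ta {a b : F} (ha : Algebra.trace k F a = 0) (hb : Algebra.trace k F b = 0)
    (u : F) :
    ∃ t : F, v0 M (t, 0) = act C φ u (tw φ M.δ a b M.h) := by
  have h1 : InV C φ M.p (act C φ u (tw φ M.δ a b M.h)) :=
    M.H.act_inV _ (M.H.tw_inV M.hδ a b M.h_inV)
  have h2 := M.H.pr_cr_par M.hδ (f := a) (g := b) ha hb M.h_inV 0 u
  have e2' : act C φ 0 M.h = 0 := by
    rw [act, map_zero, map_zero, zero_smul, zero_mul, mul_zero, sub_zero, sub_zero]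
  rw [par, e2', zero_add, mul_zero, zero_mul] at h2
  refine exists_v0 M 0 h1 ?_
  rw [h2]
  simp

/-- `M.Q` at a point at infinity. -/
theorem Q_fst' (t : F) : algebraMap k K (M.Q (t, 0)) = C.T (M.h * C.adj (v0 M (t, 0))) := by
  rw [Q_eq', qua]
  simp

theorem polar_eq (z : F × k) (t : F) : algebraMap k K (QuadraticMap.polar M.Q z (t, 0)) =
    C.T (M.h * C.cr (v0 M z) (v0 M (t, 0))) +
      algebraMap k K (M.n * M.d * z.2) * C.T (M.y * M.p⁻¹ * v0 M (t, 0)) := by
  rw [QuadraticMap.polar, map_sub, map_sub, Q_eq', Q_eq', Q_eq', v0_add_fst, ← v0_fst]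
  simp only [qua, C.adj_add, mul_add, map_add, Prod.snd_add, add_zero, mul_zero, map_zero,
    zero_mul]
  simp
  ring

/-- The linearity of the second coordinate. -/
theorem v0_add (z z' : F × k) : v0 M (z + z') = v0 M z + v0 M z' := by
  rw [v0, v0, v0, map_add, Prod.snd_add, mul_add, add_smul]
  abel

theorem v0_smul (c : k) (z : F × k) : v0 M (c • z) = c • v0 M z := by
  rw [v0, v0, map_smul, Prod.smul_snd, smul_sub, smul_smul, smul_eq_mul, mul_left_comm]

/-- The second coordinate as a linear map. -/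
noncomputable def v0L : F × k →ₗ[k] D where
  toFun := v0 M
  map_add' := v0_add M
  map_smul' := v0_smul M

/-- The polar form of the two points at infinity. -/
theorem e2p_shU : e2p k (sh k M.a) (sh k M.b) = M.c := by
  obtain ⟨Ω, _, _, ⟨S⟩⟩ := M.H.exists_dspl
  apply (algebraMap k K).injective
  apply (algebraMap K Ω).injective
  have ha' := S.trace_eq M.a
  have hb' := S.trace_eq M.b
  rw [M.ha, map_zero, map_zero] at ha'
  rw [M.hb, map_zero, map_zero] at hb'
  have ha2 : S.σ 2 M.a = -(S.σ 0 M.a + S.σ 1 M.a) := by linear_combination -ha'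
  have hb2 : S.σ 2 M.b = -(S.σ 0 M.b + S.σ 1 M.b) := by linear_combination -hb'
  rw [← S.tc_sqU M.H.h2 M.hc, S.e2p_eq, DSpl.tc]
  simp only [M.H.σ_sh S, ha2, hb2]
  ring

end dat

end Vale.Agent.P011.H308.U
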