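import Vale.Agent.P011.H308.U.M8bU

/-!
# Local points of the Skolem surface from a root of a cubic polynomial, odd characteristic
-/

set_option linter.unusedSectionVars false

open Module Polynomial Matrix
open scoped TensorProduct

namespace Vale.Agent.P011.H308.U

open Vale.Agent.P011.H775

variable {k K F D : Type} [Field k] [Field K] [Field F] [Algebra k K] [Algebra k F]

variable [StarRing K] [DivisionRing D] [StarRing D] [Algebra k D] [Algebra K D]
  [FiniteDimensional K D] [Algebra.IsCentral K D] [IsScalarTower k K D]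
  [FiniteDimensional k F] [Algebra.IsSeparable k F]

section dat

variable {C : Cub K D} {φ : F →ₐ[k] D} (M : DatU C φ)

/-- The coefficient of the square. -/
noncomputable def k2 (x₀ : k) (f : D) : K :=
  algebraMap k K (M.d * x₀) * C.T (M.p * M.y * C.adj f)

/-- The linear coefficient. -/
noncomputable def k1 (x₀ : k) (f v : D) : K :=
  C.T (f * C.adj v) + algebraMap k K (M.d * x₀) * C.T (M.p * M.y * C.cr f v) +
    algebraMap k K (M.n * M.d * x₀ ^ 2) * C.T (M.g * M.p⁻¹ * f)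

/-- The constant coefficient. -/
noncomputable def k0 (x₀ : k) (v : D) : K :=
  C.N v + algebraMap k K (M.d * x₀) * C.T (M.p * M.y * C.adj v) +
    algebraMap k K (M.n * M.d * x₀ ^ 2) * C.T (M.g * M.p⁻¹ * v)

theorem cub_line (x₀ : k) (f v : D) (c : K) (h : C.T (C.adj f * v) = 0) :
    cub M x₀ (c • f + v) =
    c ^ 3 * C.N f + c ^ 2 * k2 M x₀ f + c * k1 M x₀ f v + k0 M x₀ v := by
  rw [cub, C.N_add, C.adj_add, C.N_smul, C.adj_smul, C.cr_smul_left, k2, k1, k0]
  simp only [mul_add, mul_smul_comm, smul_mul_assoc, map_add, map_smul, smul_eq_mul, h]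
  ring

theorem star_k2 (x₀ : k) {f : D} (hf : Sy M.p f) : star (k2 M x₀ f) = k2 M x₀ f := by
  rw [k2, star_mul', M.H.hfix', M.H.star_T_mul (py_sy M) (M.H.adj_sy hf)]

theorem gp_sy : Sy M.p (M.g * M.p⁻¹) := M.sy_mul_inv M.hg

theorem star_k1 (x₀ : k) {f v : D} (hf : Sy M.p f) (hv : Sy M.p v) :
    star (k1 M x₀ f v) = k1 M x₀ f v := by
  rw [k1, star_add, star_add, star_mul', star_mul', M.H.hfix', M.H.hfix',
    M.H.star_T_mul hf (M.H.adj_sy hv), M.H.star_T_mul (py_sy M) (M.H.cr_sy hf hv),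
    M.H.star_T_mul (gp_sy M) hf]

theorem star_k0 (x₀ : k) {v : D} (hv : Sy M.p v) : star (k0 M x₀ v) = k0 M x₀ v := by
  rw [k0, star_add, star_add, star_mul', star_mul', M.H.hfix', M.H.hfix',
    (M.H.star_coeff hv).2.2, M.H.star_T_mul (py_sy M) (M.H.adj_sy hv),
    M.H.star_T_mul (gp_sy M) hv]

/-- The Skolem polynomial on a line. -/
theorem skolem_line (z : F × k) (f₀ : F) (c : k) :
    Algebra.norm k (c • f₀ + algebraMap k F (M.d * z.2) * yF M) +
      Algebra.trace k F ((c • f₀ + algebraMap k F (M.d * z.2) * yF M) * M.A z) +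
      M.G z = c ^ 3 * Algebra.norm k f₀ + c ^ 2 * rk k (k2 M z.2 (φ f₀)) +
        c * rk k (k1 M z.2 (φ f₀) (v0 M z)) + rk k (k0 M z.2 (v0 M z)) := by
  apply (algebraMap k K).injective
  have hv := v0_inV M z
  have h1 := skolem_eq' M z (c • f₀)
  rw [h1, map_smul, ← algebraMap_smul K c, cub_line M _ _ _ _ (by
    rw [M.H.adj_φ, T_mul_inV M.H hv])]
  simp only [map_add, map_mul, map_pow, M.H.rk_eq (star_k2 M _ (M.H.hφ f₀)),
    M.H.rk_eq (star_k1 M _ (M.H.hφ f₀) hv.sy), M.H.rk_eq (star_k0 M _ hv.sy), M.H.N_φ]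

/-- **A root of the cubic gives a local point.** -/
theorem exists_point_of_root [Infinite k] (z : F × k) (f₀ : F) {L : Type} [Field L] [Algebra k L]
    (μ : L) (hμ : μ ^ 3 * algebraMap k L (Algebra.norm k f₀) +
      μ ^ 2 * algebraMap k L (rk k (k2 M z.2 (φ f₀))) +
      μ * algebraMap k L (rk k (k1 M z.2 (φ f₀) (v0 M z))) +
      algebraMap k L (rk k (k0 M z.2 (v0 M z))) = 0) :
    ∃ f : L ⊗[k] F, Algebra.norm L f +
      Algebra.trace L (L ⊗[k] F) ((1 ⊗ₜ[k] M.A z) * f) +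
      algebraMap k L (M.G z) = 0 := by
  refine ⟨μ ⊗ₜ[k] f₀ + 1 ⊗ₜ[k] (algebraMap k F (M.d * z.2) * yF M), ?_⟩
  have h := line_poly (L := L) (M.A z) f₀ (algebraMap k F (M.d * z.2) * yF M) (M.G z)
    (Polynomial.C (Algebra.norm k f₀) * X ^ 3 + Polynomial.C (rk k (k2 M z.2 (φ f₀))) * X ^ 2 +
      Polynomial.C (rk k (k1 M z.2 (φ f₀) (v0 M z))) * X +
      Polynomial.C (rk k (k0 M z.2 (v0 M z)))) (fun c => by
        rw [skolem_line]
        simp only [eval_add, eval_mul, eval_C, eval_pow, eval_X]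
        ring) μ
  rw [h]
  simp only [map_add, map_mul, map_pow, aeval_C, aeval_X]
  rw [← hμ]
  ring

end dat

end Vale.Agent.P011.H308.U
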