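import Vale.Agent.P011.H308.U.M8cU

/-!
# The scaled chart: definitions and continuity, in every odd characteristic
-/

set_option linter.unusedSectionVars false

open Module Matrix Filter Topology

namespace Vale.Agent.P011.H308.U

open Vale.Agent.P011.H775 Vale.Agent.P011.H948

variable {k K D : Type} [Field k] [Field K] [DivisionRing D] [Algebra k K] [Algebra k D]
  [Algebra K D] [IsScalarTower k K D]

section defs

variable (C : Cub K D)

/-- `pU` of `g = ε⁻¹ ĝ`. -/
noncomputable def pD (ε : k) (g : D) : D := 1 + (algebraMap k K ε / C.T (g * g)) • g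

/-- The discriminant in `D`. -/
noncomputable def DD (k : Type) {K D : Type} [Field k] [Field K] [DivisionRing D] [Algebra k K]
    [Algebra k D] [Algebra K D] (C : Cub K D) (σ : D) : k :=
  -(4 * Tk k C (C.adj σ) ^ 3 + 27 * Nk k C σ ^ 2)

end defs

section chart

variable (C : Cub K D) (s : K) (d : k) (ε : k) (g y r : D)

/-- `σ` -/
noncomputable def sg : D := r * (pD C ε g)⁻¹

/-- the second element of trace zero -/
noncomputable def bt : D :=
  3 * sg C ε g r ^ 2 - algebraMap k D (Tk k C (sg C ε g r ^ 2))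

/-- scaled `h` -/
noncomputable def hh : D := pD C ε g * g

/-- the norm of `p` -/
noncomputable def nn : k := Nk k C (pD C ε g)

/-- scaled `w₁` -/
noncomputable def ww : D := -(nn C ε g * d / 2) •
  sol k C (C.adj (hh C ε g)) (y * (pD C ε g)⁻¹) (sg C ε g r)

/-- `v₀` of the base point -/
noncomputable def v1 : D := actD C (ww C d ε g y r) (hh C ε g)

/-- scaled twist of `h` -/
noncomputable def tt : D := twD s (sg C ε g r) (bt C ε g r) (hh C ε g)

/-- scaled `v₀` of the point `zb` -/
noncomputable def ub : D := actD C (C.adj (bt C ε g r)) (tt C s ε g r)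

/-- scaled `v₀` of the point `za` -/
noncomputable def ua : D := actD C (C.adj (sg C ε g r)) (tt C s ε g r)

/-- scaled `Q z0` -/
noncomputable def q0 : k := Tk k C (hh C ε g * C.adj (v1 C d ε g y r)) +
  nn C ε g * d * Tk k C (y * (pD C ε g)⁻¹ * v1 C d ε g y r) + ε * (nn C ε g * d)

/-- scaled polar form of `z0` and the point at infinity `u` -/
noncomputable def pq (u : D) : k := Tk k C (hh C ε g * C.cr (v1 C d ε g y r) u) +
  nn C ε g * d * Tk k C (y * (pD C ε g)⁻¹ * u)

/-- scaled polar form of `zb`, `za` -/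
noncomputable def ee : k :=
  Nk k C (hh C ε g) * (d * DD k C (sg C ε g r) ^ 2)

/-- the denominator -/
noncomputable def dn (κ : k) : k :=
  ε * pq C d ε g y r (ua C s ε g r) + κ * ee C d ε g r

/-- the parameter on the line -/
noncomputable def s1 (κ : k) : k :=
  -(ε * (ε * q0 C d ε g y r + κ * pq C d ε g y r (ub C s ε g r))) / dn C s d ε g y r κ

/-- scaled `v₀` of the zero -/
noncomputable def vv (κ : k) : D :=
  ε • v1 C d ε g y r + κ • ub C s ε g r + s1 C s d ε g y r κ • ua C s ε g r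

/-- scaled linear coefficient -/
noncomputable def K1 (f v : D) : k :=
  Tk k C (f * C.adj v) + d * Tk k C (pD C ε g * y * C.cr f v) +
    ε * (nn C ε g * d) * Tk k C (g * (pD C ε g)⁻¹ * f)

/-- scaled constant coefficient -/
noncomputable def K0 (v : D) : k :=
  Nk k C v + d * Tk k C (pD C ε g * y * C.adj v) +
    ε * (nn C ε g * d) * Tk k C (g * (pD C ε g)⁻¹ * v)

/-- the leading coefficient -/
noncomputable def K3 : k := Nk k C (C.adj (sg C ε g r))

/-- scaled quadratic coefficient -/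
noncomputable def K2 : k := d * Tk k C (pD C ε g * y * C.adj (C.adj (sg C ε g r)))

/-- scaled `e₀` -/
noncomputable def e0 : D := d • sol k C 1 (pD C ε g * y) (sg C ε g r)

/-- scaled `tr (e₀ A)` -/
noncomputable def nA (v : D) : k :=
  K1 C d ε g y (e0 C d ε g y r * sg C ε g r ^ 2) v -
    Nk k C (e0 C d ε g y r) * Tk k C (sg C ε g r ^ 2)

end chart

section cub

theorem tCU (k : Type) {K D : Type} [Field k] [Field K] [DivisionRing D]
    [Algebra k K] [Algebra k D] [Algebra K D] [IsScalarTower k K D] [TopologicalSpace k]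
    [IsTopologicalDivisionRing k] [TopologicalSpace K] [IsModuleTopology k K]
    [TopologicalSpace D] [IsModuleTopology k D] [Module.Finite k K] [Module.Finite k D]
    (C : Cub K D) (h2 : (2 : K) ≠ 0) {w0 : D} (hw : C.T w0 ≠ 0) : TC C := by
  have hr : IsTopologicalRing D := IsModuleTopology.isTopologicalRing k D
  have hr' : IsTopologicalRing K := IsModuleTopology.isTopologicalRing k K
  have hs : ContinuousSMul K D := continuousSMulK k
  have hT : Continuous fun x : D => C.T x :=
    IsModuleTopology.continuous_of_linearMap (C.T.restrictScalars k)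
  have hc : Continuous fun x : D × D => C.cr x.1 x.2 := by
    simp only [Cub.cr]
    have h1 : Continuous fun x : D × D => C.T x.1 := hT.comp continuous_fst
    have h2 : Continuous fun x : D × D => C.T x.2 := hT.comp continuous_snd
    have h3 : Continuous fun x : D × D => C.T (x.1 * x.2) :=
      hT.comp (continuous_fst.mul continuous_snd)
    fun_prop
  have ha : Continuous fun x : D => C.adj x := by
    have e : (fun x : D => C.adj x) = fun x : D => (2 : K)⁻¹ • C.cr x x := by
      funext x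
      rw [C.cr_self, smul_smul, inv_mul_cancel₀ h2, one_smul]
    rw [e]
    have h4 : Continuous fun x : D => C.cr x x := hc.comp (continuous_id.prodMk continuous_id)
    exact h4.const_smul _
  refine ⟨hT, ha, hc, ?_⟩
  have e : (fun x : D => C.N x) = fun x : D => (C.T w0)⁻¹ * C.T (w0 * (x * C.adj x)) := by
    funext x
    rw [C.mul_adj, mul_smul_comm, mul_one, map_smul, smul_eq_mul, mul_comm (C.N x), ← mul_assoc,
      inv_mul_cancel₀ hw, one_mul]
  rw [e]
  have h5 : Continuous fun x : D => C.T (w0 * (x * C.adj x)) :=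
    hT.comp (continuous_const.mul (continuous_id.mul ha))
  exact continuous_const.mul h5

end cub

section good

variable (C : Cub K D) (s : K) (d : k) (a : AbsoluteValue k ℝ)

/-- The open conditions on `(κ, ε, ĝ, ŷ, r)`. -/
structure GX (κ ε : k) (g y r : D) : Prop where
  L1 : (Lam k C (C.adj (hh C ε g)) (sg C ε g r)).det ≠ 0
  L2 : (Lam k C 1 (sg C ε g r)).det ≠ 0
  n0 : dn C s d ε g y r κ ≠ 0
  k3 : K3 C ε g r ≠ (0 : k)
  i1 : a (K1 C d ε g y (C.adj (sg C ε g r)) (vv C s d ε g y r κ) * K3 C ε g r) <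
    a (K2 C d ε g y r) ^ 2
  i0 : a (K0 C d ε g y (vv C s d ε g y r κ) * K3 C ε g r ^ 2) < a (K2 C d ε g y r) ^ 3
  A : nA C d ε g y r (vv C s d ε g y r κ) ≠ 0

variable {C s d a} [TopologicalSpace k] [IsTopologicalDivisionRing k] [T2Space k]
  [TopologicalSpace K] [IsModuleTopology k K] [TopologicalSpace D] [IsModuleTopology k D]
  [Module.Finite k K] [Module.Finite k D]

/-- Continuity at the limit point. -/
theorem eventually_GX (ha : Continuous fun c => a c) (h2 : (2 : K) ≠ 0)
    {gs ys rs : D} (g0 : C.T (gs * gs) ≠ 0)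
    (L1 : (Lam k C (C.adj (hh C (0 : k) gs)) (sg C (0 : k) gs rs)).det ≠ 0)
    (L2 : (Lam k C 1 (sg C (0 : k) gs rs)).det ≠ 0)
    (he : ee C d 0 gs rs ≠ 0) (hK3 : K3 C 0 gs rs ≠ (0 : k)) (hK2 : K2 C d 0 gs ys rs ≠ 0)
    (hN : Nk k C (e0 C d 0 gs ys rs) * Tk k C (sg C (0 : k) gs rs ^ 2) ≠ 0) :
    ∀ᶠ κ in 𝓝 (0 : k), κ ≠ 0 → ∀ᶠ X in 𝓝 ((0 : k), gs, ys, rs),
      GX C s d a κ X.1 X.2.1 X.2.2.1 X.2.2.2 := by
  have i1 : IsTopologicalRing D := IsModuleTopology.isTopologicalRing k D
  have i2 : IsTopologicalRing K := IsModuleTopology.isTopologicalRing k K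
  have i3 : ContinuousSMul K D := continuousSMulK k
  have i4 : ContinuousInv₀ D := continuousInv k
  have i5 : TC C := tCU k C h2 g0
  have i6 : ContinuousInv₀ K := continuousInv k
  have p0 : pD C (0 : k) gs = 1 := by rw [pD, map_zero, zero_div, zero_smul, add_zero]
  have hp0 : pD C (0 : k) gs ≠ 0 := by rw [p0]; exact one_ne_zero
  -- step 1
  have st1 : ∀ᶠ κ in 𝓝 (0 : k),
      a (K1 C d 0 gs ys (C.adj (sg C (0 : k) gs rs)) (κ • ub C s (0 : k) gs rs) * K3 C 0 gs rs) <
        a (K2 C d 0 gs ys rs) ^ 2 ∧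
      a (K0 C d 0 gs ys (κ • ub C s (0 : k) gs rs) * K3 C 0 gs rs ^ 2) <
        a (K2 C d 0 gs ys rs) ^ 3 ∧
      nA C d 0 gs ys rs (κ • ub C s (0 : k) gs rs) ≠ 0 := by
    have hpos : 0 < a (K2 C d 0 gs ys rs) := a.pos hK2
    have c1 : ContinuousAt (fun κ : k => a (K1 C d 0 gs ys (C.adj (sg C (0 : k) gs rs))
        (κ • ub C s (0 : k) gs rs) * K3 C 0 gs rs)) 0 := by
      refine ContinuousAt.comp (g := fun c : k => a c) ha.continuousAt ?_
      unfold K1
      fun_prop
    have c0 : ContinuousAt (fun κ : k => a (K0 C d 0 gs ys (κ • ub C s (0 : k) gs rs) *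
        K3 C 0 gs rs ^ 2)) 0 := by
      refine ContinuousAt.comp (g := fun c : k => a c) ha.continuousAt ?_
      unfold K0
      fun_prop
    have cA : ContinuousAt (fun κ : k => nA C d 0 gs ys rs (κ • ub C s (0 : k) gs rs)) 0 := by
      unfold nA K1
      fun_prop
    have cr0 : ∀ f : D, C.cr f 0 = 0 := fun f => by
      have h := C.cr_smul_right 0 f 0
      rwa [zero_smul, zero_smul] at h
    have e1 : ∀ f : D, K1 C d 0 gs ys f (0 : D) = (0 : k) := fun f => by
      simp only [K1, Tk, C.adj_zero, cr0, mul_zero, zero_mul, map_zero, add_zero]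
    have e0' : K0 C d 0 gs ys (0 : D) = (0 : k) := by
      simp only [K0, Tk, Nk, C.N_zero, C.adj_zero, mul_zero, zero_mul, map_zero, add_zero]
    refine (c1.eventually_lt continuousAt_const ?_).and
      ((c0.eventually_lt continuousAt_const ?_).and ?_)
    · rw [zero_smul, e1, zero_mul, map_zero]
      positivity
    · rw [zero_smul, e0', zero_mul, map_zero]
      positivity
    · refine cA.eventually_ne ?_
      rw [zero_smul, nA, e1, zero_sub]
      exact neg_ne_zero.2 hN
  filter_upwards [st1] with κ hκ hκ0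
  obtain ⟨hκ1, hκ2, hκ3⟩ := hκ
  -- step 2
  set x0 : k × D × D × D := ((0 : k), gs, ys, rs) with hx0
  have fe : ContinuousAt (fun X : k × D × D × D => X.1) x0 := continuousAt_fst
  have fg : ContinuousAt (fun X : k × D × D × D => X.2.1) x0 := by fun_prop
  have fy : ContinuousAt (fun X : k × D × D × D => X.2.2.1) x0 := by fun_prop
  have fr : ContinuousAt (fun X : k × D × D × D => X.2.2.2) x0 := by fun_prop
  have cal : Continuous fun c : k => algebraMap k K c :=
    IsModuleTopology.continuous_of_linearMap (Algebra.linearMap k K)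
  have ceps : ContinuousAt (fun X : k × D × D × D => algebraMap k K X.1) x0 :=
    ContinuousAt.comp (g := fun c : k => algebraMap k K c) cal.continuousAt fe
  have cgg : ContinuousAt (fun X : k × D × D × D => (C.T (X.2.1 * X.2.1))⁻¹) x0 :=
    ContinuousAt.inv₀ (cT (fg.mul fg)) g0
  have cp : ContinuousAt (fun X : k × D × D × D => pD C X.1 X.2.1) x0 := by
    unfold pD
    refine continuousAt_const.add (ContinuousAt.smul ?_ fg)
    simp only [div_eq_mul_inv]
    exact ceps.mul cgg
  have cpi : ContinuousAt (fun X : k × D × D × D => (pD C X.1 X.2.1)⁻¹) x0 := cp.inv₀ hp0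
  have csg : ContinuousAt (fun X : k × D × D × D => sg C X.1 X.2.1 X.2.2.2) x0 := by
    unfold sg
    exact fr.mul cpi
  have cbt : ContinuousAt (fun X : k × D × D × D => bt C X.1 X.2.1 X.2.2.2) x0 := by
    unfold bt
    have h := (IsModuleTopology.continuous_of_linearMap (Algebra.linearMap k D))
    refine (continuousAt_const.mul (csg.pow 2)).sub ?_
    refine ContinuousAt.comp (g := fun c : k => algebraMap k D c) h.continuousAt ?_
    exact cTk (csg.pow 2)
  have chh : ContinuousAt (fun X : k × D × D × D => hh C X.1 X.2.1) x0 := by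
    unfold hh
    exact cp.mul fg
  have cnn : ContinuousAt (fun X : k × D × D × D => nn C X.1 X.2.1) x0 := by
    unfold nn
    exact cNk cp
  have cww : ContinuousAt (fun X : k × D × D × D => ww C d X.1 X.2.1 X.2.2.1 X.2.2.2) x0 := by
    unfold ww
    have h := csol (C := C) (cadj chh) (fy.mul cpi) csg L1
    exact (((cnn.mul continuousAt_const).div_const 2).neg).smul h
  have cv1 : ContinuousAt (fun X : k × D × D × D => v1 C d X.1 X.2.1 X.2.2.1 X.2.2.2) x0 := by
    unfold v1 actD
    fun_prop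
  have ctt : ContinuousAt (fun X : k × D × D × D => tt C s X.1 X.2.1 X.2.2.2) x0 := by
    unfold tt twD
    fun_prop
  have cub : ContinuousAt (fun X : k × D × D × D => ub C s X.1 X.2.1 X.2.2.2) x0 := by
    unfold ub actD
    fun_prop
  have cua : ContinuousAt (fun X : k × D × D × D => ua C s X.1 X.2.1 X.2.2.2) x0 := by
    unfold ua actD
    fun_prop
  have cq0 : ContinuousAt (fun X : k × D × D × D => q0 C d X.1 X.2.1 X.2.2.1 X.2.2.2) x0 := by
    unfold q0
    fun_prop
  have cpa : ContinuousAt (fun X : k × D × D × D => pq C d X.1 X.2.1 X.2.2.1 X.2.2.2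
      (ua C s X.1 X.2.1 X.2.2.2)) x0 := by
    unfold pq
    fun_prop
  have cpb : ContinuousAt (fun X : k × D × D × D => pq C d X.1 X.2.1 X.2.2.1 X.2.2.2
      (ub C s X.1 X.2.1 X.2.2.2)) x0 := by
    unfold pq
    fun_prop
  have cee : ContinuousAt (fun X : k × D × D × D => ee C d X.1 X.2.1 X.2.2.2) x0 := by
    unfold ee DD
    fun_prop
  have cdn : ContinuousAt (fun X : k × D × D × D =>
      dn C s d X.1 X.2.1 X.2.2.1 X.2.2.2 κ) x0 := by
    unfold dn
    fun_prop
  have hdn : dn C s d x0.1 x0.2.1 x0.2.2.1 x0.2.2.2 κ ≠ 0 := by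
    rw [dn, hx0]
    change (0 : k) * _ + κ * ee C d 0 gs rs ≠ 0
    rw [zero_mul, zero_add]
    exact mul_ne_zero hκ0 he
  have cs1 : ContinuousAt (fun X : k × D × D × D =>
      s1 C s d X.1 X.2.1 X.2.2.1 X.2.2.2 κ) x0 := by
    unfold s1
    refine ContinuousAt.div ?_ cdn hdn
    fun_prop
  have cvv : ContinuousAt (fun X : k × D × D × D =>
      vv C s d X.1 X.2.1 X.2.2.1 X.2.2.2 κ) x0 := by
    unfold vv
    fun_prop
  have evv : vv C s d x0.1 x0.2.1 x0.2.2.1 x0.2.2.2 κ = κ • ub C s (0 : k) gs rs := by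
    rw [vv, s1, hx0]
    change (0 : k) • _ + κ • ub C s (0 : k) gs rs + (-((0 : k) * _) / _) • _ = _
    rw [zero_smul, zero_mul, neg_zero, zero_div, zero_smul, zero_add, add_zero]
  have cK3 : ContinuousAt (fun X : k × D × D × D => K3 C X.1 X.2.1 X.2.2.2) x0 := by
    unfold K3
    fun_prop
  have cK2 : ContinuousAt (fun X : k × D × D × D => K2 C d X.1 X.2.1 X.2.2.1 X.2.2.2) x0 := by
    unfold K2
    fun_prop
  have cK1 : ContinuousAt (fun X : k × D × D × D => K1 C d X.1 X.2.1 X.2.2.1
      (C.adj (sg C X.1 X.2.1 X.2.2.2)) (vv C s d X.1 X.2.1 X.2.2.1 X.2.2.2 κ)) x0 := by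
    unfold K1
    fun_prop
  have cK0 : ContinuousAt (fun X : k × D × D × D => K0 C d X.1 X.2.1 X.2.2.1
      (vv C s d X.1 X.2.1 X.2.2.1 X.2.2.2 κ)) x0 := by
    unfold K0
    fun_prop
  have ce0 : ContinuousAt (fun X : k × D × D × D => e0 C d X.1 X.2.1 X.2.2.1 X.2.2.2) x0 := by
    unfold e0
    exact (csol (C := C) continuousAt_const (cp.mul fy) csg L2).const_smul d
  have cnA : ContinuousAt (fun X : k × D × D × D => nA C d X.1 X.2.1 X.2.2.1 X.2.2.2
      (vv C s d X.1 X.2.1 X.2.2.1 X.2.2.2 κ)) x0 := by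
    unfold nA K1
    fun_prop
  have cL1 : ContinuousAt (fun X : k × D × D × D =>
      (Lam k C (C.adj (hh C X.1 X.2.1)) (sg C X.1 X.2.1 X.2.2.2)).det) x0 :=
    ContinuousAt.comp (g := fun M : Matrix (Fin 3) (Fin 3) k => M.det)
      (continuous_id.matrix_det.continuousAt) (cLam (cadj chh) csg)
  have cL2 : ContinuousAt (fun X : k × D × D × D =>
      (Lam k C 1 (sg C X.1 X.2.1 X.2.2.2)).det) x0 :=
    ContinuousAt.comp (g := fun M : Matrix (Fin 3) (Fin 3) k => M.det)
      (continuous_id.matrix_det.continuousAt) (cLam continuousAt_const csg)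
  have m1 : ∀ᶠ X in 𝓝 x0, a (K1 C d X.1 X.2.1 X.2.2.1 (C.adj (sg C X.1 X.2.1 X.2.2.2))
      (vv C s d X.1 X.2.1 X.2.2.1 X.2.2.2 κ) * K3 C X.1 X.2.1 X.2.2.2) <
      a (K2 C d X.1 X.2.1 X.2.2.1 X.2.2.2) ^ 2 := by
    refine ContinuousAt.eventually_lt
      (ContinuousAt.comp (g := fun c : k => a c) ha.continuousAt (cK1.mul cK3))
      ((ContinuousAt.comp (g := fun c : k => a c) ha.continuousAt cK2).pow 2) ?_
    rw [evv]
    exact hκ1
  have m0 : ∀ᶠ X in 𝓝 x0, a (K0 C d X.1 X.2.1 X.2.2.1
      (vv C s d X.1 X.2.1 X.2.2.1 X.2.2.2 κ) * K3 C X.1 X.2.1 X.2.2.2 ^ 2) <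
      a (K2 C d X.1 X.2.1 X.2.2.1 X.2.2.2) ^ 3 := by
    refine ContinuousAt.eventually_lt
      (ContinuousAt.comp (g := fun c : k => a c) ha.continuousAt (cK0.mul (cK3.pow 2)))
      ((ContinuousAt.comp (g := fun c : k => a c) ha.continuousAt cK2).pow 3) ?_
    rw [evv]
    exact hκ2
  have mA : ∀ᶠ X in 𝓝 x0, nA C d X.1 X.2.1 X.2.2.1 X.2.2.2
      (vv C s d X.1 X.2.1 X.2.2.1 X.2.2.2 κ) ≠ 0 := by
    refine cnA.eventually_ne ?_
    rw [evv]
    exact hκ3
  filter_upwards [cL1.eventually_ne L1, cL2.eventually_ne L2, cdn.eventually_ne hdn,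
    cK3.eventually_ne hK3, m1, m0, mA] with X x1 x2 x3 x4 x5 x6 x7
  exact ⟨x1, x2, x3, x4, x5, x6, x7⟩

end good

end Vale.Agent.P011.H308.U
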