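import Vale.Agent.P011.H308.U.M8dU

/-!
# Nondegeneracy at the limit point, in every odd characteristic
-/

set_option linter.unusedSectionVars false

open Module Matrix Filter Topology

namespace Vale.Agent.P011.H308.U

open Vale.Agent.P011.H775 Vale.Agent.P011.H948

/-- The standing hypotheses on the fields. -/
structure BsU (k K : Type) [Field k] [Field K] [StarRing K] [Algebra k K] : Prop where
  hfix : ∀ c : K, star c = c → c ∈ Set.range (algebraMap k K)
  hfix' : ∀ c : k, star (algebraMap k K c) = algebraMap k K c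
  hK : finrank k K = 2
  h2 : (2 : k) ≠ 0

section rk

variable {k K : Type} [Field k] [Field K] [StarRing K] [Algebra k K] (H : BsU k K)

include H

theorem BsU.rk_alg (c : k) : rk k (algebraMap k K c) = c := by
  rw [rk, LinearMap.smul_apply, Algebra.trace_algebraMap, H.hK, nsmul_eq_mul, smul_eq_mul]
  have := H.h2
  push_cast
  field_simp

theorem BsU.rk_eq {c : K} (hc : star c = c) : algebraMap k K (rk k c) = c := by
  obtain ⟨c', rfl⟩ := H.hfix c hc
  rw [H.rk_alg]

theorem BsU.rk_ne {c : K} (hc : star c = c) (h0 : c ≠ 0) : rk k c ≠ 0 := by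
  intro h
  apply h0
  rw [← H.rk_eq hc, h, map_zero]

theorem BsU.two : (2 : K) ≠ 0 := by
  have h := (_root_.map_ne_zero (algebraMap k K)).2 H.h2
  rwa [map_ofNat] at h

end rk

section lam

variable {k K D : Type} [Field k] [Field K] [StarRing K] [DivisionRing D] [StarRing D]
  [Algebra k K] [Algebra k D] [Algebra K D] [IsScalarTower k K D] (H : BsU k K) {C : Cub K D}
  (hC : SCub C)

include H hC

/-- Powers of a noncentral element are independent over `k`. -/
theorem indep_pow {x : D} (hxc : ∀ c : K, x ≠ c • (1 : D)) {c0 c1 c2 : k}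
    (h : c0 • (1 : D) + c1 • x + c2 • (x * x) = 0) : c0 = 0 ∧ c1 = 0 ∧ c2 = 0 := by
  have _ := H
  have _ := hC
  have hk : ∀ (c : k) (z : D), c • z = algebraMap k K c • z := fun c z =>
    (algebraMap_smul K c z).symm
  by_cases h2 : c2 = 0
  · rw [h2, zero_smul, add_zero] at h
    by_cases h1 : c1 = 0
    · rw [h1, zero_smul, add_zero] at h
      refine ⟨?_, h1, h2⟩
      rcases smul_eq_zero.1 h with h | h
      · exact h
      · exact absurd h one_ne_zero
    · exfalso
      apply hxc (-(algebraMap k K (c1⁻¹ * c0)))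
      have h3 : c1 • x = -(c0 • (1 : D)) := by
        rw [eq_neg_iff_add_eq_zero, add_comm]
        exact h
      rw [neg_smul, ← hk, mul_smul, ← smul_neg, ← h3, smul_smul, inv_mul_cancel₀ h1, one_smul]
  · exfalso
    have h3 : x * x = (algebraMap k K (-(c2⁻¹ * c1))) • x -
        (algebraMap k K (c2⁻¹ * c0)) • (1 : D) := by
      rw [← hk, ← hk]
      have h4 : c2 • (x * x) = -(c1 • x) - c0 • (1 : D) := by
        rw [← sub_eq_zero]
        rw [← h]
        abel
      have h5 : x * x = c2⁻¹ • (c2 • (x * x)) := by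
        rw [smul_smul, inv_mul_cancel₀ h2, one_smul]
      rw [h5, h4]
      module
    obtain ⟨c, hc⟩ := mem_of_quad C _ _ h3
    exact hxc c hc

theorem cayley_k {x : D} (hx : star x = x) : x * x * x =
    rk k (C.T x) • (x * x) - rk k (C.S x) • x + rk k (C.N x) • (1 : D) := by
  have h1 := C.cayley x
  have e1 : rk k (C.T x) • (x * x) = C.T x • (x * x) := by
    rw [← algebraMap_smul K, H.rk_eq (hC.T_symm hx)]
  have e2 : rk k (C.S x) • x = C.S x • x := by
    rw [← algebraMap_smul K, H.rk_eq (hC.S_symm hx)]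
  have e3 : rk k (C.N x) • (1 : D) = C.N x • (1 : D) := by
    rw [← algebraMap_smul K, H.rk_eq (hC.N_symm hx)]
  rw [e1, e2, e3, ← sub_eq_zero, ← h1]
  abel

/-- Nondegeneracy of the Gram matrix. -/
theorem det_Lam_ne {x a : D} (hx : star x = x) (hxc : ∀ c : K, x ≠ c • (1 : D))
    {n : ℕ} (ha : Tk k C (a * x ^ n) ≠ 0) : (Lam k C a x).det ≠ 0 := by
  intro hdet
  obtain ⟨c, hc0, hc⟩ := Matrix.exists_mulVec_eq_zero_iff.2 hdet
  set Φ : (Fin 3 → k) →ₗ[k] D := Fintype.linearCombination k (fun j : Fin 3 => x ^ (j : ℕ))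
    with hΦ
  have hΦa : ∀ b : Fin 3 → k, Φ b = b 0 • (1 : D) + b 1 • x + b 2 • (x * x) := by
    intro b
    rw [hΦ, Fintype.linearCombination_apply, Fin.sum_univ_three]
    simp [pow_two]
  have hinj : ∀ b, Φ b = 0 → b = 0 := by
    intro b hb
    rw [hΦa] at hb
    obtain ⟨h0, h1, h2⟩ := indep_pow H hC hxc hb
    funext i
    fin_cases i
    · exact h0
    · exact h1
    · exact h2
  have hxE : ∀ e ∈ LinearMap.range Φ, x * e ∈ LinearMap.range Φ := by
    rintro _ ⟨b, rfl⟩
    refine ⟨![b 2 * rk k (C.N x), b 0 - b 2 * rk k (C.S x), b 1 + b 2 * rk k (C.T x)], ?_⟩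
    have h1 := cayley_k H hC hx
    rw [hΦa, hΦa]
    simp only [Matrix.cons_val_zero, Matrix.cons_val_one, Matrix.cons_val_two,
      Matrix.head_cons, Matrix.tail_cons]
    rw [mul_add, mul_add, mul_smul_comm, mul_smul_comm, mul_smul_comm, mul_one, ← mul_assoc, h1]
    simp
    module
  have huE : ∀ e ∈ LinearMap.range Φ, Φ c * e ∈ LinearMap.range Φ := by
    intro e he
    rw [hΦa, add_mul, add_mul, smul_mul_assoc, smul_mul_assoc, smul_mul_assoc, one_mul,
      mul_assoc]
    exact Submodule.add_mem _ (Submodule.add_mem _ (Submodule.smul_mem _ _ he)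
      (Submodule.smul_mem _ _ (hxE e he))) (Submodule.smul_mem _ _ (hxE _ (hxE e he)))
  have hu0 : Φ c ≠ 0 := fun h => hc0 (hinj c h)
  set m : LinearMap.range Φ →ₗ[k] LinearMap.range Φ :=
    (LinearMap.mulLeft k (Φ c)).restrict huE with hm
  have hmi : Function.Injective m := by
    rw [injective_iff_map_eq_zero]
    intro e he
    have h1 : Φ c * (e : D) = 0 := congrArg Subtype.val he
    rcases mul_eq_zero.1 h1 with h | h
    · exact absurd h hu0
    · exact Subtype.ext h
  have h1E : (1 : D) ∈ LinearMap.range Φ := ⟨![1, 0, 0], by rw [hΦa]; simp⟩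
  obtain ⟨e, he⟩ := LinearMap.surjective_of_injective hmi ⟨1, h1E⟩
  have he' : Φ c * (e : D) = 1 := congrArg Subtype.val he
  obtain ⟨b, hb⟩ := e.2
  have hTk : ∀ z w : D, Tk k C (z + w) = Tk k C z + Tk k C w := fun z w => by
    rw [Tk, map_add, map_add, Tk, Tk]
  have hTs : ∀ (r : k) (z : D), Tk k C (r • z) = r * Tk k C z := fun r z => by
    rw [Tk, ← algebraMap_smul K r z, map_smul, Tk, smul_eq_mul, ← Algebra.smul_def, map_smul,
      smul_eq_mul]
  have hi : ∀ i : Fin 3, Tk k C (a * (x ^ (i : ℕ) * Φ c)) = 0 := by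
    intro i
    have h1 := congrFun hc i
    have h2 : (Lam k C a x *ᵥ c) i = Tk k C (a * x ^ (i : ℕ)) * c 0 +
        Tk k C (a * x ^ ((i : ℕ) + 1)) * c 1 + Tk k C (a * x ^ ((i : ℕ) + 2)) * c 2 := by
      rw [Matrix.mulVec, dotProduct, Fin.sum_univ_three]
      rfl
    rw [h2] at h1
    rw [hΦa]
    have e1 : a * (x ^ (i : ℕ) * (c 0 • (1 : D) + c 1 • x + c 2 • (x * x))) =
        c 0 • (a * x ^ (i : ℕ)) + c 1 • (a * x ^ ((i : ℕ) + 1)) +
          c 2 • (a * x ^ ((i : ℕ) + 2)) := by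
      simp only [mul_add, mul_smul_comm, mul_one, pow_add, pow_one, pow_two]
    rw [e1, hTk, hTk, hTs, hTs, hTs]
    rw [Pi.zero_apply] at h1
    linear_combination h1
  have hall : ∀ m : ℕ, Tk k C (a * (x ^ m * Φ c)) = 0 := by
    intro m
    induction m using Nat.strong_induction_on with
    | _ m ih =>
      rcases lt_or_ge m 3 with h3 | h3
      · exact hi ⟨m, h3⟩
      · obtain ⟨j, rfl⟩ := Nat.exists_eq_add_of_le' h3
        have h1 := cayley_k H hC hx
        have h2 : x ^ (j + 3) = rk k (C.T x) • x ^ (j + 2) - rk k (C.S x) • x ^ (j + 1) +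
            rk k (C.N x) • x ^ j := by
          have e : x ^ (j + 3) = x ^ j * (x * x * x) := by
            rw [pow_add, pow_succ, pow_two]
          rw [e, h1, mul_add, mul_sub, mul_smul_comm, mul_smul_comm, mul_smul_comm, mul_one,
            pow_add, pow_two, pow_succ]
        have e1 : a * (x ^ (j + 3) * Φ c) = rk k (C.T x) • (a * (x ^ (j + 2) * Φ c)) +
            (-rk k (C.S x)) • (a * (x ^ (j + 1) * Φ c)) +
              rk k (C.N x) • (a * (x ^ j * Φ c)) := by
          rw [h2, add_mul, sub_mul, mul_add, mul_sub]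
          simp only [smul_mul_assoc, mul_smul_comm, neg_smul]
          abel
        rw [e1, hTk, hTk, hTs, hTs, hTs, ih _ (by omega), ih _ (by omega), ih _ (by omega)]
        ring
  apply ha
  have h5 : a * x ^ n = b 0 • (a * (x ^ n * Φ c)) + b 1 • (a * (x ^ (n + 1) * Φ c)) +
      b 2 • (a * (x ^ (n + 2) * Φ c)) := by
    have hcomm : x * Φ c = Φ c * x := by
      rw [hΦa]
      simp only [mul_add, add_mul, mul_smul_comm, smul_mul_assoc, mul_one, one_mul, mul_assoc]
    have h6 : (1 : D) = b 0 • (Φ c) + b 1 • (x * Φ c) + b 2 • (x * x * Φ c) := by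
      rw [← he', ← hb, hΦa b]
      simp only [mul_add, mul_smul_comm, mul_one]
      rw [mul_assoc x x, hcomm, ← mul_assoc x, hcomm, mul_assoc]
    calc a * x ^ n = a * (x ^ n * 1) := by rw [mul_one]
      _ = _ := by
        conv_lhs => rw [h6]
        simp only [mul_add, mul_smul_comm, pow_add, pow_one, pow_two, mul_assoc]
  rw [h5, hTk, hTk, hTs, hTs, hTs, hall, hall, hall]
  ring

theorem star_smul_k (c : k) {x : D} (hx : star x = x) : star (c • x) = c • x := by
  rw [← algebraMap_smul K c x, hC.smul, H.hfix', hx]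

theorem star_pow_k {x : D} (hx : star x = x) (n : ℕ) : star (x ^ n) = x ^ n := by
  have _ := H
  have _ := hC
  rw [star_pow, hx]

omit [IsScalarTower k K D] in
theorem star_one_D : star (1 : D) = 1 := by
  have _ := H
  have _ := hC
  exact star_one D

theorem sol_symm {x : D} (hx : star x = x) (a b : D) : star (sol k C a b x) = sol k C a b x := by
  rw [sol, star_sum]
  exact Finset.sum_congr rfl fun j _ => star_smul_k H hC _ (star_pow_k H hC hx _)

theorem sol_ne {x : D} (hxc : ∀ c : K, x ≠ c • (1 : D)) {a b : D}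
    (hdet : (Lam k C a x).det ≠ 0) (i : Fin 3) (hb : Tk k C (b * x ^ (i : ℕ)) ≠ 0) :
    sol k C a b x ≠ 0 := by
  intro h
  set w : Fin 3 → k := fun i : Fin 3 => Tk k C (b * x ^ (i : ℕ)) with hw
  set v : Fin 3 → k := (Lam k C a x).adjugate *ᵥ w with hv
  rw [sol, Fin.sum_univ_three] at h
  have h' : ((Lam k C a x).det⁻¹ * v 0) • (1 : D) + ((Lam k C a x).det⁻¹ * v 1) • x +
      ((Lam k C a x).det⁻¹ * v 2) • (x * x) = 0 := by
    rw [← h]
    simp [hv, hw, pow_two]
  obtain ⟨h0, h1, h2⟩ := indep_pow H hC hxc h'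
  have hi := inv_ne_zero hdet
  have hv0 : v = 0 := by
    funext j
    fin_cases j
    · exact (mul_eq_zero.1 h0).resolve_left hi
    · exact (mul_eq_zero.1 h1).resolve_left hi
    · exact (mul_eq_zero.1 h2).resolve_left hi
  have h3 : (Lam k C a x) *ᵥ v = (Lam k C a x).det • w := by
    rw [hv, Matrix.mulVec_mulVec, Matrix.mul_adjugate, Matrix.smul_mulVec, Matrix.one_mulVec]
  rw [hv0, Matrix.mulVec_zero] at h3
  have h4 := congrFun h3 i
  rw [Pi.zero_apply, Pi.smul_apply, smul_eq_mul] at h4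
  rcases mul_eq_zero.1 h4.symm with h5 | h5
  · exact hdet h5
  · exact hb h5

end lam


/-- The hypotheses on the limit point. -/
structure LimU {K D : Type} [Field K] [DivisionRing D] [StarRing D] [Algebra K D] (C : Cub K D)
    (gs ys rs : D) : Prop where
  sg : star gs = gs
  sy : star ys = ys
  sr : star rs = rs
  Tr : C.T rs = 0
  r0 : rs ≠ 0
  S : C.S gs ≠ 0
  Ty : C.T (ys * rs) ≠ 0
  Tgg : C.T (gs * gs) ≠ 0
  Sr : C.S rs ≠ 0

section lim

variable {k K D : Type} [Field k] [Field K] [StarRing K] [DivisionRing D] [StarRing D]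
  [Algebra k K] [Algebra k D] [Algebra K D] [IsScalarTower k K D] (H : BsU k K) {C : Cub K D}
  (hC : SCub C) {gs ys rs : D} (hL : LimU C gs ys rs)

omit [StarRing K] [StarRing D] in
variable (k) in
theorem p_lim : pD C (0 : k) gs = 1 := by
  rw [pD, map_zero, zero_div, zero_smul, add_zero]

omit [StarRing K] [StarRing D] in
variable (k) in
theorem sg_lim : sg C (0 : k) gs rs = rs := by
  rw [sg, p_lim, inv_one, mul_one]

omit [StarRing K] [StarRing D] in
variable (k) in
theorem hh_lim : hh C (0 : k) gs = gs := by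
  rw [hh, p_lim, one_mul]

include H hC hL

omit [IsScalarTower k K D] hC in
theorem LimU.g0 : gs ≠ 0 := by
  have _ := H
  rintro rfl
  apply hL.S
  rw [Cub.S, C.adj_zero, map_zero]

omit hC in
theorem r_nc (c : K) : rs ≠ c • (1 : D) := by
  intro h
  have h1 := hL.Tr
  rw [h, map_smul, C.T_one, smul_eq_mul] at h1
  have h2 := hL.Sr
  rw [h, C.S_smul] at h2
  apply h2
  have h3 : C.S (1 : D) = 3 := by rw [Cub.S, C.adj_one, C.T_one]
  rw [h3, pow_two, mul_assoc, h1, mul_zero]

theorem L1_ne : (Lam k C (C.adj (hh C (0 : k) gs)) (sg C (0 : k) gs rs)).det ≠ 0 := by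
  rw [sg_lim, hh_lim]
  refine det_Lam_ne H hC hL.sr (r_nc (k := k) H hL) (n := 0) ?_
  rw [pow_zero, mul_one, Tk, ← Cub.S]
  exact H.rk_ne (hC.S_symm hL.sg) hL.S

omit hC in
theorem T_pow_two : C.T (rs ^ 2) = -2 * C.S rs := by
  have _ := H
  have h1 : C.T (C.adj rs) = C.T (rs * rs) - C.T rs * C.T rs + C.S rs * 3 := by
    rw [C.adj_eq, map_add, map_sub, map_smul, map_smul, C.T_one, smul_eq_mul, smul_eq_mul]
  rw [← Cub.S, hL.Tr] at h1
  rw [pow_two]
  linear_combination (-1 : K) * h1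

theorem Tk_sq_ne : Tk k C (rs ^ 2) ≠ 0 := by
  rw [Tk]
  refine H.rk_ne (hC.T_symm (by rw [star_pow, hL.sr])) ?_
  rw [T_pow_two (k := k) H hL]
  exact mul_ne_zero (neg_ne_zero.2 H.two) hL.Sr

theorem L2_ne : (Lam k C 1 (sg C (0 : k) gs rs)).det ≠ 0 := by
  rw [sg_lim]
  refine det_Lam_ne H hC hL.sr (r_nc (k := k) H hL) (n := 2) ?_
  rw [one_mul]
  exact Tk_sq_ne H hC hL

theorem K3_ne : K3 C 0 gs rs ≠ (0 : k) := by
  rw [K3, Nk, sg_lim]
  refine H.rk_ne (hC.N_symm (hC.adj_symm hL.sr)) (C.N_ne_zero ?_)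
  intro h
  have h1 := C.mul_adj rs
  rw [h, mul_zero] at h1
  rcases smul_eq_zero.1 h1.symm with h2 | h2
  · exact C.N_ne_zero hL.r0 h2
  · exact one_ne_zero h2

theorem K2_ne {d : k} (hd : d ≠ 0) : K2 C d 0 gs ys rs ≠ 0 := by
  rw [K2, sg_lim, p_lim, one_mul]
  refine mul_ne_zero hd ?_
  rw [C.adj_adj, mul_smul_comm, Tk, map_smul, smul_eq_mul]
  refine H.rk_ne ?_ (mul_ne_zero (C.N_ne_zero hL.r0) hL.Ty)
  rw [star_mul', hC.N_symm hL.sr, hC.T_mul_symm hL.sy hL.sr]

omit hC in
/-- The discriminant of an element of trace zero, in every odd characteristic. -/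
theorem disc_neU : 4 * C.S rs ^ 3 + 27 * C.N rs ^ 2 ≠ 0 := by
  by_cases h3 : (3 : K) = 0
  · have e : (27 : K) = 3 * 9 := by norm_num
    rw [e, h3, zero_mul, zero_mul, add_zero]
    have h4 : (4 : K) = 2 * 2 := by norm_num
    rw [h4]
    exact mul_ne_zero (mul_ne_zero H.two H.two) (pow_ne_zero 3 hL.Sr)
  · exact disc_ne C h3 hL.r0 hL.Tr

theorem DD_ne : DD k C (sg C (0 : k) gs rs) ≠ 0 := by
  rw [sg_lim]
  intro h0
  have hd := disc_neU (k := k) H hL
  apply hd
  have h := congrArg (algebraMap k K) h0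
  rw [DD] at h
  simp only [map_neg, map_add, map_mul, map_pow, map_ofNat, map_zero, Tk, Nk] at h
  rw [H.rk_eq (hC.T_symm (hC.adj_symm hL.sr)), H.rk_eq (hC.N_symm hL.sr), ← Cub.S] at h
  exact neg_eq_zero.1 h

theorem ee_ne {d : k} (hd : d ≠ 0) : ee C d 0 gs rs ≠ 0 := by
  rw [ee]
  refine mul_ne_zero ?_ (mul_ne_zero hd (pow_ne_zero 2 (DD_ne H hC hL)))
  rw [Nk, hh_lim]
  exact H.rk_ne (hC.N_symm hL.sg) (C.N_ne_zero (hL.g0 H))

theorem e0_ne {d : k} (hd : d ≠ 0) :
    Nk k C (e0 C d 0 gs ys rs) * Tk k C (sg C (0 : k) gs rs ^ 2) ≠ 0 := by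
  refine mul_ne_zero ?_ (by rw [sg_lim]; exact Tk_sq_ne H hC hL)
  have hL2 := L2_ne (k := k) H hC hL
  rw [sg_lim] at hL2
  rw [Nk, e0, sg_lim, p_lim, one_mul]
  refine H.rk_ne (hC.N_symm (star_smul_k H hC _ (sol_symm H hC hL.sr _ _))) (C.N_ne_zero ?_)
  refine smul_ne_zero hd (sol_ne H hC (r_nc (k := k) H hL) hL2 1 ?_)
  have h6 : ((1 : Fin 3) : ℕ) = 1 := rfl
  rw [h6, pow_one, Tk]
  exact H.rk_ne (hC.T_mul_symm hL.sy hL.sr) hL.Ty

end lim

end Vale.Agent.P011.H308.U
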