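import Vale.Agent.P011.H308.U.M8eU
import Vale.Agent.P011.H871.U.PpU

/-!
# The scaled chart and the chart, in every odd characteristic
-/

set_option linter.unusedSectionVars false

open Module Matrix Filter Topology
open scoped TensorProduct

namespace Vale.Agent.P011.H308.U

open Vale.Agent.P011.H775 Vale.Agent.P011.H948
open Vale.Agent.P011.H871.U (pU)

variable {k K F D : Type} [Field k] [Field K] [Field F] [Algebra k K] [Algebra k F]

variable [StarRing K] [DivisionRing D] [StarRing D] [Algebra k D] [Algebra K D]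
  [FiniteDimensional K D] [Algebra.IsCentral K D] [IsScalarTower k K D]
  [FiniteDimensional k F] [Algebra.IsSeparable k F]

section cfd

variable {C : Cub K D} {φ : F →ₐ[k] D} {p : D} (H : Cfd C φ p)

include H

theorem bsU : BsU k K := ⟨H.hfix, H.hfix', H.hK, H.h2⟩

/-- The trace of the adjoint. -/
theorem trace_sh (w : F) : Algebra.trace k F (sh k w) = e2 k w := by
  have e : algebraMap k F (Algebra.trace k F w) * w = Algebra.trace k F w • w := by
    rw [Algebra.smul_def]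
  have h2 := H.h2
  rw [sh, map_add, map_sub, e, map_smul, Algebra.trace_algebraMap, H.hF, nsmul_eq_mul,
    smul_eq_mul, e2]
  push_cast
  field_simp
  ring

theorem DD_φU (σ : F) : DD k C (φ σ) = ccU k σ := by
  rw [DD, ccU, H.adj_φ, Tk_φ H, Nk_φ H, trace_sh H]

/-- An element times its adjoint is the norm. -/
theorem mul_sh (w : F) : w * sh k w = algebraMap k F (Algebra.norm k w) := by
  apply (φ : F →+* D).injective
  have h := C.mul_adj (φ w)
  rw [H.adj_φ, H.N_φ, algebraMap_smul] at h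
  change φ (w * sh k w) = φ (algebraMap k F (Algebra.norm k w))
  rw [map_mul, h, AlgHom.commutes, Algebra.algebraMap_eq_smul_one]

/-- The norm of a sum. -/
theorem norm_add (u w : F) : Algebra.norm k (u + w) = Algebra.norm k u +
    Algebra.trace k F (sh k u * w) + Algebra.trace k F (u * sh k w) + Algebra.norm k w := by
  apply (algebraMap k K).injective
  rw [← H.N_φ, map_add, C.N_add, H.adj_φ, H.adj_φ, ← map_mul, ← map_mul, H.T_φ, H.T_φ, H.N_φ,
    H.N_φ, map_add, map_add, map_add]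

end cfd

/-- The admissible charts. -/
structure AdXU {C : Cub K D} {φ : F →ₐ[k] D} (d : k) (s : K) (g y r : D) (σ : F)
    (M : DatU C φ) : Prop where
  hσ : φ σ = r * (pU C g)⁻¹
  a : M.a = σ
  b : M.b = bbU k σ
  c : M.c = ccU k σ
  p : M.p = pU C g
  g : M.g = g
  y : M.y = y
  δ : M.δ = s
  d : M.d = d

section dat

variable {C : Cub K D} {φ : F →ₐ[k] D} {M : DatU C φ} {d : k} {s : K} {g y r : D} {σ : F}
  (hM : AdXU d s g y r σ M) {l : k} (hl : l ≠ 0)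

include hM hl

theorem g_ne : g ≠ 0 := by
  have _ := hl
  intro h
  apply M.prh0
  rw [hM.g, h, mul_zero, C.adj_zero, map_zero]

theorem x_p : pD C l (l • g) = M.p := by
  have hlK : algebraMap k K l ≠ 0 := (_root_.map_ne_zero _).2 hl
  rw [hM.p, pU, pD]
  congr 1
  rw [← algebraMap_smul K l g, smul_mul_assoc, mul_smul_comm, map_smul, map_smul, smul_eq_mul,
    smul_eq_mul, smul_smul]
  congr 1
  by_cases ht : C.T (g * g) = 0
  · rw [ht]
    simp
  · field_simp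

theorem x_sg : sg C l (l • g) r = φ σ := by
  rw [sg, x_p hM hl, hM.hσ, hM.p]

theorem x_bt : bt C l (l • g) r = φ M.b := by
  rw [bt, x_sg hM hl, hM.b, bbU, map_sub, map_mul, map_pow, AlgHom.commutes, ← map_pow,
    Tk_φ M.H, map_ofNat]

theorem x_hh : hh C l (l • g) = l • M.h := by
  rw [hh, x_p hM hl, mul_smul_comm, DatU.h, hM.g]

theorem x_nn : nn C l (l • g) = M.n := by
  rw [nn, x_p hM hl, Nk, M.hn, rk_algK M.H]

theorem Tk_s (c : k) (z : D) : Tk k C (c • z) = c * Tk k C z := by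
  have _ := hM
  have _ := hl
  exact Tk_smul c z

theorem x_ww (hdet : (Lam k C (C.adj (hh C l (l • g))) (sg C l (l • g) r)).det ≠ 0) :
    ww C d l (l • g) (l • y) r = φ (l⁻¹ • w₁ M) := by
  have hs1 : Sy M.p (C.adj (hh C l (l • g))) := by
    rw [x_hh hM hl, adj_smul_k, smul_algK K]
    exact M.H.smul_K (M.H.adj_sy M.h_inV.sy) (M.H.hfix' _)
  have hs2 : Sy M.p (l • y * (pD C l (l • g))⁻¹) := by
    rw [x_p hM hl, smul_mul_assoc, smul_algK K, ← hM.y]
    exact M.H.smul_K (M.sy_mul_inv M.hy) (M.H.hfix' _)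
  have hdet' := hdet
  rw [x_sg hM hl] at hdet'
  rw [ww, x_nn hM hl, x_sg hM hl, sol_eq M.H hs1 hs2 hdet', x_hh hM hl, adj_smul_k,
    x_p hM hl, smul_mul_assoc, map_smul, map_smul, ← hM.y, ← hM.d, ← map_smul]
  congr 1
  have hp := M.prh0
  have hp' : pr C φ (C.adj M.h) ≠ 0 := hp
  have hlF : algebraMap k F l ≠ 0 := (_root_.map_ne_zero _).2 hl
  rw [w₁]
  simp only [Algebra.smul_def, map_neg, map_inv₀, map_pow]
  field_simp

theorem x_v1 (hdet : (Lam k C (C.adj (hh C l (l • g))) (sg C l (l • g) r)).det ≠ 0) :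
    v1 C d l (l • g) (l • y) r = act C φ (w₁ M) M.h := by
  rw [v1, x_ww hM hl hdet, x_hh hM hl, actD_smul_r, actD_φ, ← actL_apply C φ _ (l⁻¹ • w₁ M),
    map_smul, smul_smul, mul_inv_cancel₀ hl, one_smul, actL_apply]

theorem x_tt : tt C s l (l • g) r = l • M.h' := by
  rw [tt, x_sg hM hl, x_bt hM hl, x_hh hM hl, twD, DatU.h', tw, hM.δ, hM.a]
  simp only [mul_smul_comm, smul_mul_assoc]
  rw [← smul_sub, smul_comm]

theorem x_ub : ub C s l (l • g) r = l • v0 M (sh k M.b, 0) := by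
  rw [ub, x_bt hM hl, x_tt hM hl, M.H.adj_φ, actD_smul_r, actD_φ, v0_fst]

theorem x_ua : ua C s l (l • g) r = l • v0 M (sh k M.a, 0) := by
  rw [ua, x_sg hM hl, x_tt hM hl, M.H.adj_φ, actD_smul_r, actD_φ, v0_fst, hM.a]

variable (M) in
omit hM hl in
theorem Q_za : M.Q (sh k M.a, 0) = 0 := by
  apply (algebraMap k K).injective
  rw [Q_fst', v0_fst, DatU.h', T_adj_actU M.H M.hδ M.hd M.d0 M.ha M.hb M.hc M.c0 M.h_inV,
    M.H.e2_sh, M.ha]
  simp

variable (M) in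
omit hM hl in
theorem Q_zb : M.Q (sh k M.b, 0) = 0 := by
  apply (algebraMap k K).injective
  rw [Q_fst', v0_fst, DatU.h', T_adj_actU M.H M.hδ M.hd M.d0 M.ha M.hb M.hc M.c0 M.h_inV,
    M.H.e2_sh, M.hb]
  simp

variable (M) in
omit hM hl in
theorem polar_ba : algebraMap k K (QuadraticMap.polar M.Q (sh k M.b, 0) (sh k M.a, 0)) =
    C.N M.h * algebraMap k K (M.d * M.c ^ 2) := by
  rw [polar_eq, v0_fst, v0_fst, DatU.h',
    T_cr_actU M.H M.hδ M.hd M.d0 M.ha M.hb M.hc M.c0 M.h_inV]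
  have e : e2p k (sh k M.b) (sh k M.a) = e2p k (sh k M.a) (sh k M.b) := by
    simp only [e2p, mul_comm]
  rw [e, e2p_shU]
  simp only [mul_zero, map_zero, zero_mul, add_zero]
  congr 2
  ring

theorem x_ee : ee C d l (l • g) r =
    l ^ 3 * QuadraticMap.polar M.Q (sh k M.b, 0) (sh k M.a, 0) := by
  have h1 : QuadraticMap.polar M.Q (sh k M.b, 0) (sh k M.a, 0) =
      Nk k C M.h * (M.d * M.c ^ 2) := by
    rw [← rk_algK M.H (QuadraticMap.polar M.Q (sh k M.b, 0) (sh k M.a, 0)), polar_ba,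
      mul_comm (C.N M.h), rk_mul_alg, Nk, mul_comm]
  rw [ee, x_hh hM hl, N_smul_k, x_sg hM hl, DD_φU M.H, h1, hM.c, hM.d]
  ring

theorem x_q0 {z0 : F × k} (h0 : z0.2 = 1) (hz : v0 M z0 = act C φ (w₁ M) M.h)
    (hdet : (Lam k C (C.adj (hh C l (l • g))) (sg C l (l • g) r)).det ≠ 0) :
    q0 C d l (l • g) (l • y) r = l * M.Q z0 := by
  have h1 : M.Q z0 = Tk k C (M.h * C.adj (v0 M z0)) +
      M.n * M.d * Tk k C (M.y * M.p⁻¹ * v0 M z0) + M.n * M.d := by
    rw [← rk_algK M.H (M.Q z0), Q_eq', qua, h0, mul_one, one_pow, mul_one, map_add, map_add,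
      rk_mul_alg, rk_algK M.H, Tk, Tk]
  rw [q0, x_v1 hM hl hdet, ← hz, x_hh hM hl, x_nn hM hl, x_p hM hl, h1, smul_mul_assoc,
    smul_mul_assoc, smul_mul_assoc, Tk_smul, Tk_smul, hM.y, hM.d]
  ring

theorem x_pq {z0 : F × k} (h0 : z0.2 = 1) (hz : v0 M z0 = act C φ (w₁ M) M.h)
    (hdet : (Lam k C (C.adj (hh C l (l • g))) (sg C l (l • g) r)).det ≠ 0) (t : F) :
    pq C d l (l • g) (l • y) r (l • v0 M (t, 0)) =
      l ^ 2 * QuadraticMap.polar M.Q z0 (t, 0) := by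
  have h1 : QuadraticMap.polar M.Q z0 (t, 0) = Tk k C (M.h * C.cr (v0 M z0) (v0 M (t, 0))) +
      M.n * M.d * Tk k C (M.y * M.p⁻¹ * v0 M (t, 0)) := by
    rw [← rk_algK M.H (QuadraticMap.polar M.Q z0 (t, 0)), polar_eq, h0, mul_one, map_add,
      rk_mul_alg, Tk, Tk]
  rw [pq, x_v1 hM hl hdet, ← hz, x_hh hM hl, x_nn hM hl, x_p hM hl, h1, cr_smul_r,
    smul_mul_assoc, smul_mul_assoc, smul_mul_assoc, mul_smul_comm, mul_smul_comm, Tk_smul,
    Tk_smul, Tk_smul, Tk_smul, hM.y, hM.d]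
  ring

section rho

variable {z0 : F × k} (h0 : z0.2 = 1) (hz : v0 M z0 = act C φ (w₁ M) M.h)
    (hdet : (Lam k C (C.adj (hh C l (l • g))) (sg C l (l • g) r)).det ≠ 0) (κ : k)

include h0 hz hdet

theorem x_dn : dn C s d l (l • g) (l • y) r κ =
    l ^ 3 * den M.Q z0 (sh k M.b, 0) (sh k M.a, 0) κ := by
  rw [dn, x_ua hM hl, x_pq hM hl h0 hz hdet, x_ee hM hl, den]
  ring

theorem x_s1 : s1 C s d l (l • g) (l • y) r κ =
    ss M.Q z0 (sh k M.b, 0) (sh k M.a, 0) κ := by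
  rw [s1, x_dn hM hl h0 hz hdet, x_q0 hM hl h0 hz hdet, x_ub hM hl, x_pq hM hl h0 hz hdet, ss]
  have hl3 : l ^ 3 ≠ 0 := pow_ne_zero 3 hl
  have e : -(l * (l * (l * M.Q z0) + κ * (l ^ 2 * QuadraticMap.polar M.Q z0 (sh k M.b, 0)))) =
      l ^ 3 * -(M.Q z0 + κ * QuadraticMap.polar M.Q z0 (sh k M.b, 0)) := by ring
  rw [e, mul_div_mul_left _ _ hl3]

theorem x_vv : vv C s d l (l • g) (l • y) r κ =
    l • v0 M (rho M.Q z0 (sh k M.b, 0) (sh k M.a, 0) κ) := by
  rw [vv, x_s1 hM hl h0 hz hdet, x_v1 hM hl hdet, ← hz, x_ub hM hl, x_ua hM hl, rho, v0_add,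
    v0_add, v0_smul, v0_smul, smul_add, smul_add, smul_comm κ l, smul_comm _ l]

end rho

omit hM hl in
theorem rk_k1 (x₀ : k) (f v : D) : rk k (k1 M x₀ f v) = Tk k C (f * C.adj v) +
    M.d * x₀ * Tk k C (M.p * M.y * C.cr f v) +
      M.n * M.d * x₀ ^ 2 * Tk k C (M.g * M.p⁻¹ * f) := by
  rw [k1, map_add, map_add, rk_mul_alg, rk_mul_alg, Tk, Tk, Tk]

omit hM hl in
theorem rk_k0 (x₀ : k) (v : D) : rk k (k0 M x₀ v) = Nk k C v +
    M.d * x₀ * Tk k C (M.p * M.y * C.adj v) +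
      M.n * M.d * x₀ ^ 2 * Tk k C (M.g * M.p⁻¹ * v) := by
  rw [k0, map_add, map_add, rk_mul_alg, rk_mul_alg, Tk, Tk, Nk]

omit hM hl in
theorem rk_k2 (x₀ : k) (f : D) : rk k (k2 M x₀ f) =
    M.d * x₀ * Tk k C (M.p * M.y * C.adj f) := by
  rw [k2, rk_mul_alg, Tk]

theorem x_K1 (f v : D) : K1 C d l (l • g) (l • y) f (l • v) = l ^ 2 * rk k (k1 M 1 f v) := by
  rw [K1, x_p hM hl, x_nn hM hl, rk_k1, adj_smul_k, cr_smul_r, mul_smul_comm, mul_smul_comm,
    mul_smul_comm, smul_mul_assoc, smul_mul_assoc, smul_mul_assoc, Tk_smul, Tk_smul, Tk_smul,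
    Tk_smul, hM.y, hM.d, hM.g]
  ring

theorem x_K0 (v : D) : K0 C d l (l • g) (l • y) (l • v) = l ^ 3 * rk k (k0 M 1 v) := by
  rw [K0, x_p hM hl, x_nn hM hl, rk_k0, N_smul_k, adj_smul_k, mul_smul_comm, mul_smul_comm,
    mul_smul_comm, smul_mul_assoc, smul_mul_assoc, smul_mul_assoc, Tk_smul, Tk_smul, Tk_smul,
    Tk_smul, hM.y, hM.d, hM.g]
  ring

theorem x_K2 : K2 C d l (l • g) (l • y) r = l * rk k (k2 M 1 (φ (sh k σ))) := by
  rw [K2, x_p hM hl, x_sg hM hl, rk_k2, M.H.adj_φ, mul_smul_comm, smul_mul_assoc, Tk_smul, hM.y,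
    hM.d]
  ring

theorem x_K3 : K3 C l (l • g) r = Algebra.norm k (sh k σ) := by
  rw [K3, x_sg hM hl, M.H.adj_φ, Nk_φ M.H]

theorem x_e0 (hdet : (Lam k C 1 (sg C l (l • g) r)).det ≠ 0) :
    e0 C d l (l • g) (l • y) r = l • φ (d • yF M) := by
  have h1 : Sy M.p (1 : D) := by
    change M.p * star (1 : D) = 1 * M.p
    rw [star_one, mul_one, one_mul]
  have h2 : Sy M.p (M.p * l • y) := by
    rw [mul_smul_comm, smul_algK K, ← hM.y]
    exact M.H.smul_K (py_sy M) (M.H.hfix' _)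
  have hdet' := hdet
  rw [x_sg hM hl] at hdet'
  rw [e0, x_p hM hl, x_sg hM hl, sol_eq M.H h1 h2 hdet']
  have e1 : pr C φ (1 : D) = 1 := by
    rw [← map_one φ, M.H.pr_φ]
  rw [e1, div_one, mul_smul_comm, map_smul, map_smul, map_smul, yF, hM.y, smul_comm]

/-- The trace against `A`. -/
theorem trace_f_A (z : F × k) (h1 : z.2 = 1) (f : F) :
    Algebra.trace k F (f * M.A z) = rk k (k1 M 1 (φ f) (v0 M z)) -
      Algebra.trace k F (f * sh k (M.d • yF M)) := by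
  have _ := hM
  have _ := hl
  have h := skolem_line M z f
  rw [h1, mul_one, ← Algebra.smul_def] at h
  generalize M.d • yF M = E at h ⊢
  have a1 := h 1
  have a2 := h (-1)
  rw [one_smul] at a1
  rw [neg_smul, one_smul] at a2
  have n1 := norm_add M.H f E
  have n2 := norm_add M.H (-f) E
  have s2 : sh k (-f) = sh k f := by
    simp only [sh, map_neg, e2, neg_sq, neg_mul_neg]
  have s3 : Algebra.norm k (-f) = -Algebra.norm k f := by
    rw [← neg_one_smul k f, Algebra.smul_def, map_mul, Algebra.norm_algebraMap, M.H.hF]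
    ring
  rw [s2, s3, neg_mul, map_neg] at n2
  rw [n1, add_mul, map_add (Algebra.trace k F)] at a1
  rw [n2, add_mul, neg_mul, map_add (Algebra.trace k F), map_neg (Algebra.trace k F)] at a2
  apply mul_left_cancel₀ M.H.h2
  linear_combination a1 - a2

theorem x_nA {z : F × k} (h1 : z.2 = 1) (hdet : (Lam k C 1 (sg C l (l • g) r)).det ≠ 0) :
    nA C d l (l • g) (l • y) r (l • v0 M z) =
      l ^ 3 * Algebra.trace k F ((M.d • yF M) * σ ^ 2 * M.A z) := by
  have e : ∀ f v : D, K1 C d l (l • g) (l • y) (l • f) (l • v) =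
      l ^ 3 * rk k (k1 M 1 f v) := by
    intro f v
    rw [x_K1 hM hl, rk_k1, rk_k1, cr_smul_l, smul_mul_assoc, mul_smul_comm, mul_smul_comm,
      Tk_smul, Tk_smul, Tk_smul]
    ring
  have e3 : Algebra.trace k F ((M.d • yF M) * σ ^ 2 * sh k (M.d • yF M)) =
      Algebra.norm k (M.d • yF M) * Algebra.trace k F (σ ^ 2) := by
    rw [mul_right_comm, mul_sh M.H, ← Algebra.smul_def, map_smul, smul_eq_mul]
  rw [nA, x_e0 hM hl hdet, x_sg hM hl, smul_mul_assoc, ← map_pow, ← map_mul, e, N_smul_k,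
    Nk_φ M.H, Tk_φ M.H, trace_f_A hM hl z h1, e3, hM.d]
  ring

/-- **The algebraic half.** -/
theorem alg_end [Infinite k] {κ : k} (hκ : κ ≠ 0) : ∃ z : F × k,
    (∀ a : AbsoluteValue k ℝ, GX C s d a κ l (l • g) (l • y) r →
      M.Q z = 0 ∧ QuadraticMap.polar M.Q z (sh k M.a, 0) ≠ 0 ∧ M.A z ≠ 0 ∧
      ∃ c3 c2 c1 c0 : k, c3 ≠ 0 ∧ a (c1 * c3) < a c2 ^ 2 ∧ a (c0 * c3 ^ 2) < a c2 ^ 3 ∧
        ∀ (L : Type) [Field L] [Algebra k L] (μ : L),
          algebraMap k L c3 * μ ^ 3 + algebraMap k L c2 * μ ^ 2 + algebraMap k L c1 * μ +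
            algebraMap k L c0 = 0 →
          ∃ f : TensorProduct k L F, Algebra.norm L f +
            Algebra.trace L (TensorProduct k L F) ((1 ⊗ₜ[k] M.A z) * f) +
            algebraMap k L (M.G z) = 0) := by
  have _ := hκ
  obtain ⟨t0, ht0⟩ := exists_t₀ M
  refine ⟨rho M.Q (t0, 1) (sh k M.b, 0) (sh k M.a, 0) κ, ?_⟩
  intro a hG
  have h0 : ((t0, 1) : F × k).2 = 1 := rfl
  set z : F × k := rho M.Q (t0, 1) (sh k M.b, 0) (sh k M.a, 0) κ with hzz
  have hz2 : z.2 = 1 := by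
    rw [hzz, rho]
    simp
  have hdn := hG.n0
  rw [x_dn hM hl h0 ht0 hG.L1] at hdn
  have hden := right_ne_zero_of_mul hdn
  have hla : 0 < a l := a.pos hl
  refine ⟨Q_rho (Q_zb M) (Q_za M) hden, ?_, ?_, Algebra.norm k (sh k σ),
    rk k (k2 M 1 (φ (sh k σ))), rk k (k1 M 1 (φ (sh k σ)) (v0 M z)), rk k (k0 M 1 (v0 M z)),
    ?_, ?_, ?_, ?_⟩
  · rw [hzz, polar_rho (Q_za M)]
    exact hden
  · intro hA
    have h1 := hG.A
    rw [x_vv hM hl h0 ht0 hG.L1, ← hzz, x_nA hM hl hz2 hG.L2, hA, mul_zero, map_zero,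
      mul_zero] at h1
    exact h1 rfl
  · have h1 := hG.k3
    rwa [x_K3 hM hl] at h1
  · have h1 := hG.i1
    rw [x_vv hM hl h0 ht0 hG.L1, ← hzz, x_sg hM hl, M.H.adj_φ, x_K1 hM hl, x_K3 hM hl,
      x_K2 hM hl, mul_assoc, map_mul, map_mul a l, map_pow, mul_pow] at h1
    exact lt_of_mul_lt_mul_left h1 (by positivity)
  · have h1 := hG.i0
    rw [x_vv hM hl h0 ht0 hG.L1, ← hzz, x_K0 hM hl, x_K3 hM hl,
      x_K2 hM hl, mul_assoc, map_mul, map_mul a l, map_pow, mul_pow] at h1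
    exact lt_of_mul_lt_mul_left h1 (by positivity)
  · intro L _ _ μ hμ
    refine exists_point_of_root M z (sh k σ) μ ?_
    rw [hz2, ← hμ]
    ring

end dat

end Vale.Agent.P011.H308.U
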